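import Vale.Agent.Lib.P042.UB.Circle.Arcs

set_option autoImplicit false

namespace Vale.Agent.P042.UB

open Polynomial

namespace ArcsLower2

open ArcsLower

theorem size_M2 {k B CN E M : ℕ} (hk : 1 ≤ k) (u ck X d : ℝ) (hu2 : 2 ≤ u) (hd0 : 0 ≤ d)
    (hdu : d ≤ u) (hck1 : 1 ≤ ck) (hckB : ck ≤ (B : ℝ) * d ^ k)
    (hBu : (B : ℝ) ≤ u)
    (hCN : CN = 3 * k + 7 + k * E) (hX : u ^ (CN - 1) ≤ X)
    (hMlow : X < 8 * (((k : ℝ) + 1) * (B : ℝ) * 2 ^ k) * (ck * (M : ℝ) ^ k)) :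
    u ^ E < (M : ℝ) := by
  have hu1 : (1 : ℝ) ≤ u := by linarith
  have hu0 : 0 < u := by linarith
  have hB0 : (0 : ℝ) ≤ B := Nat.cast_nonneg _
  have hM0 : (0 : ℝ) ≤ M := Nat.cast_nonneg _
  have hku : ((k : ℝ) + 1) ≤ u ^ (k + 1) := by
    have := nat_le_pow hu2 (k + 1)
    push_cast at this
    exact this
  have e1 : (8 : ℝ) ≤ u ^ 3 := by
    calc (8 : ℝ) = 2 ^ 3 := by norm_num
      _ ≤ u ^ 3 := pow_le_pow_left₀ (by norm_num) hu2 3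
  have e2 : ((k : ℝ) + 1) * (B : ℝ) * 2 ^ k ≤ u ^ (k + 1) * u * u ^ k :=
    mul_le_mul (mul_le_mul hku hBu hB0 (by positivity))
      (pow_le_pow_left₀ (by norm_num) hu2 k) (by positivity) (by positivity)
  have e3 : ck ≤ u * u ^ k := by
    refine hckB.trans ?_
    exact mul_le_mul hBu (pow_le_pow_left₀ hd0 hdu k) (by positivity) (by positivity)
  have e4 : 8 * (((k : ℝ) + 1) * (B : ℝ) * 2 ^ k) * ck ≤
      u ^ 3 * (u ^ (k + 1) * u * u ^ k) * (u * u ^ k) :=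
    mul_le_mul (mul_le_mul e1 e2 (by positivity) (by positivity)) e3 (by linarith)
      (by positivity)
  have e5 : u ^ 3 * (u ^ (k + 1) * u * u ^ k) * (u * u ^ k) =
      u ^ (3 * k + 6) := by
    ring
  rw [e5] at e4
  have h1 : 8 * (((k : ℝ) + 1) * (B : ℝ) * 2 ^ k) * (ck * (M : ℝ) ^ k) ≤
      u ^ (3 * k + 6) * (M : ℝ) ^ k := by
    calc 8 * (((k : ℝ) + 1) * (B : ℝ) * 2 ^ k) * (ck * (M : ℝ) ^ k)
        = 8 * (((k : ℝ) + 1) * (B : ℝ) * 2 ^ k) * ck * (M : ℝ) ^ k := by ring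
      _ ≤ _ := mul_le_mul_of_nonneg_right e4 (by positivity)
  have h2 : u ^ (CN - 1) < u ^ (3 * k + 6) * (M : ℝ) ^ k :=
    lt_of_le_of_lt hX (lt_of_lt_of_le hMlow h1)
  have h3 : u ^ (CN - 1) = u ^ (3 * k + 6) * (u ^ E) ^ k := by
    have h4 : CN - 1 = 3 * k + 6 + E * k := by
      rw [hCN, mul_comm E k]
      omega
    rw [h4, pow_add, pow_mul]
  rw [h3] at h2
  have h4 : (u ^ E) ^ k < (M : ℝ) ^ k := lt_of_mul_lt_mul_left h2 (pow_pos hu0 _).le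
  exact lt_of_pow_lt_pow_left₀ k hM0 h4

theorem size_one2 {k B CN : ℕ} (u ck X d : ℝ) (hu2 : 2 ≤ u) (hd0 : 0 ≤ d)
    (hdu : d ≤ u) (hck1 : 1 ≤ ck) (hckB : ck ≤ (B : ℝ) * d ^ k)
    (hBu : (B : ℝ) ≤ u)
    (hCN : 3 * k + 7 ≤ CN) (hX : u ^ (CN - 1) ≤ X) :
    ((k : ℝ) + 1) * ((B : ℝ) * ck) ≤ X / 8 := by
  have hu1 : (1 : ℝ) ≤ u := by linarith
  have hu0 : 0 < u := by linarith
  have hB0 : (0 : ℝ) ≤ B := Nat.cast_nonneg _
  have hku : ((k : ℝ) + 1) ≤ u ^ (k + 1) := by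
    have := nat_le_pow hu2 (k + 1)
    push_cast at this
    exact this
  have e1 : ((k : ℝ) + 1) * ((B : ℝ) * ck) ≤
      u ^ (k + 1) * (u * (u * u ^ k)) := by
    refine mul_le_mul hku ?_ (by positivity) (by positivity)
    refine mul_le_mul hBu ?_ (by linarith) (by positivity)
    refine hckB.trans ?_
    exact mul_le_mul hBu (pow_le_pow_left₀ hd0 hdu k) (by positivity) (by positivity)
  have e2 : u ^ (k + 1) * (u * (u * u ^ k)) = u ^ (2 * k + 3) := by ring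
  have e3 : (8 : ℝ) ≤ u ^ 3 := by
    calc (8 : ℝ) = 2 ^ 3 := by norm_num
      _ ≤ u ^ 3 := pow_le_pow_left₀ (by norm_num) hu2 3
  rw [le_div_iff₀ (by norm_num)]
  calc ((k : ℝ) + 1) * ((B : ℝ) * ck) * 8 ≤ u ^ (2 * k + 3) * u ^ 3 :=
        mul_le_mul (e1.trans (le_of_eq e2)) e3 (by norm_num) (by positivity)
    _ = u ^ (2 * k + 6) := by ring
    _ ≤ u ^ (CN - 1) := pow_le_pow_right₀ hu1 (by omega)
    _ ≤ X := hX

/-- The radius bound: `D/(ck M^k) ≤ K/N` with `D = (1/δ)^Cm`. -/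
theorem size_rad2 {k B Cm CK M : ℕ} (w K N ck α D : ℝ) (hw2 : 2 ≤ w) (hK : K = w ^ CK)
    (hα : 0 < α) (hαinv : 1 / α ≤ w) (hN : 0 < N) (hck : 1 ≤ ck) (hM : 1 ≤ M)
    (hD0 : 0 ≤ D) (hD : D ≤ w ^ (4 * Cm)) (hBw : (B : ℝ) ≤ w)
    (hCK : 4 * Cm + 2 * k + 6 ≤ CK)
    (hMlow : α * N ≤ 8 * (((k : ℝ) + 1) * (B : ℝ) * 2 ^ k) * (ck * (M : ℝ) ^ k)) :
    D / (ck * (M : ℝ) ^ k) ≤ K / N := by
  have hw0 : 0 < w := by linarith
  have hw1 : 1 ≤ w := by linarith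
  have hM0 : (0 : ℝ) < M := by
    have : 0 < M := by omega
    exact_mod_cast this
  have hck0 : 0 < ck := by linarith
  have hpos1 : 0 < ck * (M : ℝ) ^ k := by positivity
  have hB0 : (0 : ℝ) ≤ B := Nat.cast_nonneg _
  have hkw : ((k : ℝ) + 1) ≤ w ^ (k + 1) := by
    have := nat_le_pow hw2 (k + 1)
    push_cast at this
    exact this
  rw [div_le_div_iff₀ hpos1 hN]
  have e1 : N ≤ w * (8 * (((k : ℝ) + 1) * (B : ℝ) * 2 ^ k) * (ck * (M : ℝ) ^ k)) := by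
    calc N = (1 / α) * (α * N) := by field_simp
      _ ≤ w * (8 * (((k : ℝ) + 1) * (B : ℝ) * 2 ^ k) * (ck * (M : ℝ) ^ k)) :=
        mul_le_mul hαinv hMlow (by positivity) hw0.le
  have e2 : (8 : ℝ) ≤ w ^ 3 := by
    calc (8 : ℝ) = 2 ^ 3 := by norm_num
      _ ≤ w ^ 3 := pow_le_pow_left₀ (by norm_num) hw2 3
  have e3 : ((k : ℝ) + 1) * (B : ℝ) * 2 ^ k ≤ w ^ (k + 1) * w * w ^ k :=
    mul_le_mul (mul_le_mul hkw hBw hB0 (by positivity))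
      (pow_le_pow_left₀ (by norm_num) hw2 k) (by positivity) (by positivity)
  have e4 : D * (w * (8 * (((k : ℝ) + 1) * (B : ℝ) * 2 ^ k))) ≤
      w ^ (4 * Cm) * (w * (w ^ 3 * (w ^ (k + 1) * w * w ^ k))) := by
    refine mul_le_mul hD ?_ (by positivity) (by positivity)
    refine mul_le_mul_of_nonneg_left ?_ hw0.le
    exact mul_le_mul e2 e3 (by positivity) (by positivity)
  have e5 : w ^ (4 * Cm) * (w * (w ^ 3 * (w ^ (k + 1) * w * w ^ k))) =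
      w ^ (4 * Cm + 2 * k + 6) := by
    ring
  have e6 : D * (w * (8 * (((k : ℝ) + 1) * (B : ℝ) * 2 ^ k))) ≤ K := by
    rw [hK]
    refine (e4.trans (le_of_eq e5)).trans ?_
    exact pow_le_pow_right₀ hw1 hCK
  calc D * N ≤ D * (w * (8 * (((k : ℝ) + 1) * (B : ℝ) * 2 ^ k) * (ck * (M : ℝ) ^ k))) :=
        mul_le_mul_of_nonneg_left e1 hD0
    _ = D * (w * (8 * (((k : ℝ) + 1) * (B : ℝ) * 2 ^ k))) * (ck * (M : ℝ) ^ k) := by ring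
    _ ≤ K * (ck * (M : ℝ) ^ k) := mul_le_mul_of_nonneg_right e6 hpos1.le

theorem size_coef2 {k B Cm E : ℕ} (w u d M D : ℝ) (hw2 : 2 ≤ w) (hwu : w ≤ u) (hd0 : 0 ≤ d)
    (hdu : d ≤ u) (hD0 : 0 ≤ D) (hD : D ≤ w ^ (4 * Cm)) (hBu : (B : ℝ) ≤ u)
    (hE : 2 + k + 4 * Cm ≤ E)
    (hM : u ^ E < M) : (B : ℝ) ^ 2 * d ^ k * D ≤ M := by
  have hw0 : 0 < w := by linarith
  have hu2 : 2 ≤ u := by linarith
  have hu1 : 1 ≤ u := by linarith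
  have hu0 : 0 < u := by linarith
  have hB0 : (0 : ℝ) ≤ B := Nat.cast_nonneg _
  have e1 : (B : ℝ) ^ 2 * d ^ k * D ≤ u ^ 2 * u ^ k * u ^ (4 * Cm) :=
    mul_le_mul (mul_le_mul (pow_le_pow_left₀ hB0 hBu 2)
      (pow_le_pow_left₀ hd0 hdu k) (by positivity) (by positivity))
      (hD.trans (pow_le_pow_left₀ hw0.le hwu _)) hD0 (by positivity)
  have e2 : u ^ 2 * u ^ k * u ^ (4 * Cm) = u ^ (2 + k + 4 * Cm) := by ring
  calc (B : ℝ) ^ 2 * d ^ k * D ≤ u ^ (2 + k + 4 * Cm) := e1.trans (le_of_eq e2)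
    _ ≤ u ^ E := pow_le_pow_right₀ hu1 hE
    _ ≤ M := hM.le

/-- The pointwise bound on a major arc. -/
theorem point_bound2 (W : ℝ) (g : ℤ[X]) (hev_nonneg : ∀ j : ℕ, 0 ≤ g.coeff j) (M q : ℕ) (a : ℤ)
    (θ : ℝ) (K N : ℝ) (hM1 : 1 ≤ M) (hq1 : 1 ≤ q) (hK1 : 1 ≤ K) (hN : 0 < N)
    (hqK : (q : ℝ) ≤ K) (hrad : |θ - (a : ℝ) / q| ≤ K / N)
    (hg0 : (0 : ℝ) ≤ ((g.eval (M : ℤ) : ℤ) : ℝ))
    (hgN : ((g.eval (M : ℤ) : ℤ) : ℝ) ≤ N / 8) (hcs : ‖cSum g a q‖ ≤ W) :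
    ‖wSum g M θ‖ ≤ W + 8 * K ^ 2 / M := by
  have hM0 : (0 : ℝ) < M := by
    have : 0 < M := by omega
    exact_mod_cast this
  have hK0 : 0 < K := by linarith
  have happ := wSum_approx g hev_nonneg M q a (θ - (a : ℝ) / q) hM1 hq1
  rw [add_sub_cancel] at happ
  have e1 : 2 * Real.pi * |θ - (a : ℝ) / q| * q * ((g.eval (M : ℤ) : ℤ) : ℝ) / M ≤
      K ^ 2 / M := by
    refine div_le_div_of_nonneg_right ?_ hM0.le
    have hpi : 2 * Real.pi ≤ 8 := by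
      have := Real.pi_lt_four
      linarith
    calc 2 * Real.pi * |θ - (a : ℝ) / q| * q * ((g.eval (M : ℤ) : ℤ) : ℝ)
        ≤ 8 * (K / N) * K * (N / 8) := by
          refine mul_le_mul (mul_le_mul (mul_le_mul hpi hrad (abs_nonneg _) (by norm_num))
            hqK (by positivity) (by positivity)) hgN hg0 (by positivity)
      _ = K ^ 2 := by
          field_simp
  have e2 : (q : ℝ) / M ≤ K ^ 2 / M := by
    refine div_le_div_of_nonneg_right (hqK.trans ?_) hM0.le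
    calc K = K ^ 1 := (pow_one _).symm
      _ ≤ K ^ 2 := pow_le_pow_right₀ hK1 (by norm_num)
  have e3 : 8 * K ^ 2 / M = 8 * (K ^ 2 / M) := by ring
  have e4 : 0 ≤ K ^ 2 / M := by positivity
  rw [e3]
  linarith

/-- Everything after the choice of `M`. -/
theorem assemble2 {k Cm CK E d M K : ℕ} (hk : 1 ≤ k) (F : AuxFamily k) (W : ℕ → ℝ)
    (hwt : ∀ (d q : ℕ) (a : ℤ), 0 < d → 0 < q → IsCoprime a (q : ℤ) →
      ‖cSum (F.H d) a q‖ ≤ W q)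
    (hmaj : ∀ (g : ℤ[X]) (Δ B : ℕ),
      g.natDegree ≤ k → 0 < g.coeff k → (∀ j : ℕ, j ≤ k → |g.coeff j| ≤ (B : ℤ)) →
      (∀ t : ℕ, (∀ j : ℕ, 1 ≤ j → (t : ℤ) ∣ g.coeff j) → t ≤ Δ) →
      ∀ (M : ℕ) (δ θ : ℝ), 0 < δ → δ ≤ 1 / 2 → 1 ≤ M → (B : ℝ) * (1 / δ) ^ Cm ≤ (M : ℝ) →
        δ ≤ ‖wSum g M θ‖ →
        ∃ (q : ℕ) (a : ℤ), 1 ≤ q ∧ IsCoprime a (q : ℤ) ∧
          (q : ℝ) ≤ (Δ : ℝ) * (1 / δ) ^ Cm ∧
          |θ - (a : ℝ) / q| ≤ (1 / δ) ^ Cm / ((g.coeff k : ℝ) * (M : ℝ) ^ k))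
    (hd : 0 < d) (w u α N : ℝ) (hw2 : 2 ≤ w) (hwu : w ≤ u) (hdu : (d : ℝ) ≤ u)
    (hα : 0 < α) (hα1 : α ≤ 1) (hαinv : 1 / α ≤ w) (hN : 0 < N)
    (hKw : (K : ℝ) = w ^ CK) (hM1 : 1 ≤ M)
    (hBw : (F.B : ℝ) ≤ w) (hΔw : (F.Δ : ℝ) ≤ w)
    (hCK1 : 4 * Cm + 2 * k + 6 ≤ CK)
    (hE : 2 + k + 4 * Cm ≤ E) (hME : u ^ E < (M : ℝ))
    (hMP : (((F.H d).eval (M : ℤ) : ℤ) : ℝ) ≤ α * N / 8)
    (hMlow : α * N ≤ 8 * (((k : ℝ) + 1) * (F.B : ℝ) * 2 ^ k) *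
      ((((F.H d).coeff k : ℤ) : ℝ) * (M : ℝ) ^ k)) (θ : ℝ) :
    ‖wSum (F.H d) M θ‖ ≤ α / 8 ∨ ∃ (q : ℕ) (a : ℤ), 1 ≤ q ∧ q ≤ K ∧
      IsCoprime a (q : ℤ) ∧ |θ - (a : ℝ) / q| ≤ (K : ℝ) / N ∧
      ‖wSum (F.H d) M θ‖ ≤ W q + 8 * (K : ℝ) ^ 2 / M := by
  by_cases hθ : ‖wSum (F.H d) M θ‖ ≤ α / 8
  · exact Or.inl hθ
  right
  push Not at hθ
  have hw1 : 1 ≤ w := by linarith
  have hckpos : 0 < (F.H d).coeff k := F.coeff_pos d hd k le_rfl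
  have hck1 : (1 : ℝ) ≤ (((F.H d).coeff k : ℤ) : ℝ) := by exact_mod_cast hckpos
  have hδC := size_delta Cm w α hw2 hα hαinv
  have hδ0 : 0 < α / 8 := by positivity
  have hD0 : (0 : ℝ) ≤ (1 / (α / 8)) ^ Cm := by positivity
  have hev_nonneg : ∀ j : ℕ, 0 ≤ (F.H d).coeff j := by
    intro j
    by_cases hj : j ≤ k
    · exact (F.coeff_pos d hd j hj).le
    · rw [coeff_eq_zero_of_natDegree_lt (by rw [F.natDegree_H d hd]; omega)]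
  have hcoefB : ∀ j : ℕ, j ≤ k → |(F.H d).coeff j| ≤ ((F.B ^ 2 * d ^ k : ℕ) : ℤ) := by
    intro j hj
    rw [abs_of_nonneg (hev_nonneg j)]
    have e1 := F.coeff_le d hd j hj
    have e2 := F.lead_le d hd
    push_cast
    calc (F.H d).coeff j ≤ (F.B : ℤ) * (F.H d).coeff k := e1
      _ ≤ (F.B : ℤ) * ((F.B : ℤ) * (d : ℤ) ^ k) :=
        mul_le_mul_of_nonneg_left e2 (by positivity)
      _ = (F.B : ℤ) ^ 2 * (d : ℤ) ^ k := by ring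
  have hcoefM : ((F.B ^ 2 * d ^ k : ℕ) : ℝ) * (1 / (α / 8)) ^ Cm ≤ (M : ℝ) := by
    push_cast
    exact size_coef2 w u d M _ hw2 hwu (Nat.cast_nonneg _) hdu hD0 hδC (hBw.trans hwu) hE hME
  obtain ⟨q, a, hq1, hcop, hqle, hθa⟩ := hmaj (F.H d) F.Δ (F.B ^ 2 * d ^ k)
    (by rw [F.natDegree_H d hd]) hckpos hcoefB (F.content d hd) M (α / 8) θ hδ0 (by linarith) hM1
    hcoefM hθ.le
  have hK1 : (1 : ℝ) ≤ K := by
    rw [hKw]
    exact one_le_pow₀ hw1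
  have hqK : (q : ℝ) ≤ K := by
    refine hqle.trans ?_
    rw [hKw]
    calc (F.Δ : ℝ) * (1 / (α / 8)) ^ Cm ≤ w * w ^ (4 * Cm) :=
          mul_le_mul hΔw hδC hD0 (by linarith)
      _ = w ^ (4 * Cm + 1) := by rw [pow_succ']
      _ ≤ w ^ CK := pow_le_pow_right₀ hw1 (by omega)
  have hrad : |θ - (a : ℝ) / q| ≤ (K : ℝ) / N :=
    hθa.trans (size_rad2 w K N _ α _ hw2 hKw hα hαinv hN hck1 hM1 hD0 hδC hBw hCK1 hMlow)
  refine ⟨q, a, hq1, by exact_mod_cast hqK, hcop, hrad, ?_⟩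
  have hg0 : (0 : ℝ) ≤ (((F.H d).eval (M : ℤ) : ℤ) : ℝ) := by
    have h1 := eval_lower F hd (n := (M : ℤ)) (by positivity)
    have h2 : 0 ≤ (F.H d).coeff k * (M : ℤ) ^ k := by positivity
    exact_mod_cast h2.trans h1
  have hgN : (((F.H d).eval (M : ℤ) : ℤ) : ℝ) ≤ N / 8 := by
    refine hMP.trans ?_
    have : α * N ≤ 1 * N := mul_le_mul_of_nonneg_right hα1 hN.le
    linarith
  exact point_bound2 (W q) (F.H d) hev_nonneg M q a θ K N hM1 hq1 hK1 hN hqK hrad hg0 hgN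
    (hwt d q a hd (by omega) hcop)

end ArcsLower2

open ArcsLower ArcsLower2

/-- The circle method with exponents depending on the degree only.

PROOF. Same as `arcs_lower` (`Circle/Arcs.lean`): the constants of `major_arc k` depend on `k`
only; the constants `B, Δ` of the family are absorbed by `2^m` for `m ≥ m₀(F)`. The weight is an
arbitrary nonnegative majorant `w` of the complete sums. -/
theorem arcs_lower2 (k : ℕ) (hk : 1 ≤ k) :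
    ∃ CK CN : ℕ, 1 ≤ CK ∧ 1 ≤ CN ∧ ∀ F : AuxFamily k, ∃ m₀ : ℕ, ∀ w : ℕ → ℝ, (∀ q, 0 ≤ w q) →
      (∀ (d q : ℕ) (a : ℤ), 0 < d → 0 < q → IsCoprime a (q : ℤ) →
        ‖cSum (F.H d) a q‖ ≤ w q) →
      ∀ m d N : ℕ, m₀ ≤ m → 1 ≤ m → 0 < d → (d * 2 ^ m) ^ CN ≤ N →
      ∀ A : Finset ℤ, A ⊆ Finset.Icc (1 : ℤ) N → ∀ α : ℝ, (1 / 2) ^ m ≤ α → α ≤ 1 →
      (A.card : ℝ) = α * N → Avoids (F.H d) A →
      α ^ 2 * N / 4 ≤ ∑ q ∈ Finset.Icc 1 (2 ^ (CK * m)),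
        w q * arcEnergy N (bal N A) ((2 : ℝ) ^ (CK * m) / N) q := by
  obtain ⟨Cm, hmaj⟩ := major_arc k hk
  obtain ⟨CK, hCK⟩ : ∃ x : ℕ, x = 4 * Cm + 2 * k + 7 := ⟨_, rfl⟩
  obtain ⟨E, hE⟩ : ∃ x : ℕ, x = 2 + k + 4 * Cm + 4 * CK + 8 := ⟨_, rfl⟩
  obtain ⟨CN, hCN⟩ : ∃ x : ℕ, x = 3 * k + 7 + k * E := ⟨_, rfl⟩
  have hkE : E ≤ k * E := Nat.le_mul_of_pos_left E (by omega)
  refine ⟨CK, CN, by omega, by omega, fun F => ⟨F.B + F.Δ, ?_⟩⟩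
  intro W hW0 hwt m d N hm0 hm hd hN A hA α hα0 hα1 hcard hav
  -- the basic sizes
  obtain ⟨w, hw⟩ : ∃ x : ℝ, x = 2 ^ m := ⟨_, rfl⟩
  have hw2 : 2 ≤ w := by
    rw [hw]
    calc (2 : ℝ) = 2 ^ 1 := by norm_num
      _ ≤ 2 ^ m := pow_le_pow_right₀ (by norm_num) hm
  have hw1 : (1 : ℝ) ≤ w := by linarith
  have hw0 : 0 < w := by linarith
  have hmw : (m : ℝ) ≤ w := by
    rw [hw]
    exact_mod_cast (Nat.lt_two_pow_self (n := m)).le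
  have hBw : (F.B : ℝ) ≤ w := by
    refine le_trans ?_ hmw
    exact_mod_cast (show F.B ≤ m by omega)
  have hΔw : (F.Δ : ℝ) ≤ w := by
    refine le_trans ?_ hmw
    exact_mod_cast (show F.Δ ≤ m by omega)
  obtain ⟨u, hu⟩ : ∃ x : ℝ, x = (d : ℝ) * w := ⟨_, rfl⟩
  have hd1 : (1 : ℝ) ≤ d := by exact_mod_cast hd
  have hwu : w ≤ u := by
    rw [hu]
    exact le_mul_of_one_le_left hw0.le hd1
  have hdu : (d : ℝ) ≤ u := by
    rw [hu]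
    exact le_mul_of_one_le_right (by linarith) hw1
  have hu2 : 2 ≤ u := hw2.trans hwu
  have hu1 : (1 : ℝ) ≤ u := by linarith
  have hu0 : 0 < u := by linarith
  have hNu : u ^ CN ≤ (N : ℝ) := by
    have h1 : (((d * 2 ^ m) ^ CN : ℕ) : ℝ) ≤ (N : ℝ) := by exact_mod_cast hN
    push_cast at h1
    rw [hu, hw]
    exact h1
  have hNpos : (0 : ℝ) < N := lt_of_lt_of_le (pow_pos hu0 _) hNu
  have hN1 : 1 ≤ N := by
    have : 0 < N := by exact_mod_cast hNpos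
    omega
  have hαw : 1 / w ≤ α := by
    rw [hw, ← one_div_pow]
    exact hα0
  have hα : 0 < α := lt_of_lt_of_le (by positivity) hαw
  have hαinv : 1 / α ≤ w := by
    rw [div_le_iff₀ hα]
    rw [div_le_iff₀ hw0] at hαw
    linarith
  have hαN : u ^ (CN - 1) ≤ α * N := by
    have h1 : u ^ (CN - 1) * w ≤ N := by
      have h2 : u ^ (CN - 1) * u = u ^ CN := by
        rw [← pow_succ]
        congr 1
        omega
      calc u ^ (CN - 1) * w ≤ u ^ (CN - 1) * u :=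
            mul_le_mul_of_nonneg_left hwu (pow_nonneg hu0.le _)
        _ = u ^ CN := h2
        _ ≤ N := hNu
    calc u ^ (CN - 1) = (u ^ (CN - 1) * w) * (1 / w) := by field_simp
      _ ≤ N * α := mul_le_mul h1 hαw (by positivity) hNpos.le
      _ = α * N := mul_comm _ _
  have hckpos : 0 < (F.H d).coeff k := F.coeff_pos d hd k le_rfl
  have hck1 : (1 : ℝ) ≤ (((F.H d).coeff k : ℤ) : ℝ) := by exact_mod_cast hckpos
  have hckB : (((F.H d).coeff k : ℤ) : ℝ) ≤ (F.B : ℝ) * (d : ℝ) ^ k := by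
    exact_mod_cast F.lead_le d hd
  have hev_up : ∀ n : ℕ, 1 ≤ n → (((F.H d).eval (n : ℤ) : ℤ) : ℝ) ≤
      ((k : ℝ) + 1) * ((F.B : ℝ) * (((F.H d).coeff k : ℤ) : ℝ)) * (n : ℝ) ^ k := by
    intro n hn
    have h1 := eval_upper F hd (n := (n : ℤ)) (by exact_mod_cast hn)
    exact_mod_cast h1
  have hev_lo : ∀ n : ℕ, (n : ℝ) ^ k ≤ (((F.H d).eval (n : ℤ) : ℤ) : ℝ) := by
    intro n
    have h1 := eval_lower F hd (n := (n : ℤ)) (by positivity)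
    have h2 : (((F.H d).coeff k : ℤ) : ℝ) * (n : ℝ) ^ k ≤ (((F.H d).eval (n : ℤ) : ℤ) : ℝ) := by
      exact_mod_cast h1
    refine le_trans ?_ h2
    have h3 : (0 : ℝ) ≤ (n : ℝ) ^ k := by positivity
    exact le_mul_of_one_le_left h3 hck1
  -- the number `M`
  have hP1 : (((F.H d).eval ((1 : ℕ) : ℤ) : ℤ) : ℝ) ≤ α * N / 8 := by
    have h1 := hev_up 1 le_rfl
    rw [Nat.cast_one (R := ℝ), one_pow, mul_one] at h1
    exact h1.trans (size_one2 u _ _ d hu2 (by linarith) hdu hck1 hckB (hBw.trans hwu) (by omega) hαN)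
  obtain ⟨M, hM1, hMP, hMN⟩ := exists_M (F.H d) k hk (α * N / 8) hev_lo hP1
  have hM0 : (0 : ℝ) < M := by
    have : 0 < M := by omega
    exact_mod_cast this
  have hM1' : (1 : ℝ) ≤ M := by exact_mod_cast hM1
  -- lower bounds for `M`
  have hMlow : α * N < 8 * (((k : ℝ) + 1) * (F.B : ℝ) * 2 ^ k) *
      ((((F.H d).coeff k : ℤ) : ℝ) * (M : ℝ) ^ k) := by
    have h1 := hev_up (M + 1) (by omega)
    have h2 : ((M + 1 : ℕ) : ℝ) ^ k ≤ 2 ^ k * (M : ℝ) ^ k := by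
      rw [← mul_pow]
      refine pow_le_pow_left₀ (by positivity) ?_ k
      push_cast
      linarith
    have hpos : 0 ≤ ((k : ℝ) + 1) * ((F.B : ℝ) * (((F.H d).coeff k : ℤ) : ℝ)) := by
      have h0 : (0 : ℝ) ≤ (((F.H d).coeff k : ℤ) : ℝ) := by linarith
      positivity
    have h3 := mul_le_mul_of_nonneg_left h2 hpos
    have h4 : α * N / 8 < ((k : ℝ) + 1) * ((F.B : ℝ) * (((F.H d).coeff k : ℤ) : ℝ)) *
        (2 ^ k * (M : ℝ) ^ k) := lt_of_lt_of_le hMN (h1.trans h3)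
    have h5 : 8 * (((k : ℝ) + 1) * (F.B : ℝ) * 2 ^ k) *
        ((((F.H d).coeff k : ℤ) : ℝ) * (M : ℝ) ^ k) =
        8 * (((k : ℝ) + 1) * ((F.B : ℝ) * (((F.H d).coeff k : ℤ) : ℝ)) *
        (2 ^ k * (M : ℝ) ^ k)) := by ring
    rw [h5]
    linarith
  have hME : u ^ E < (M : ℝ) :=
    size_M2 hk u _ _ d hu2 (by linarith) hdu hck1 hckB (hBw.trans hwu) hCN hαN hMlow
  -- the parameters
  obtain ⟨K, hK⟩ : ∃ x : ℕ, x = 2 ^ (CK * m) := ⟨_, rfl⟩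
  have hKw : (K : ℝ) = w ^ CK := by
    rw [hK, hw]
    push_cast
    rw [← pow_mul, mul_comm]
  have hKcast : (2 : ℝ) ^ (CK * m) = (K : ℝ) := by
    rw [hK]
    push_cast
    rfl
  rw [hKcast, ← hK]
  have hK1 : (1 : ℝ) ≤ K := by
    rw [hKw]
    exact one_le_pow₀ hw1
  have hK0 : (0 : ℝ) < K := by linarith
  have hKM : 128 * (K : ℝ) ^ 4 * w ≤ M := size_KM w u K M hw2 hwu hKw (by omega) hME
  have hKN : 2 * (K : ℝ) ^ 3 < N := size_KN w u K N hw2 hwu hKw (by omega) hNu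
  -- the lower bound from counting
  have hlow := circle_lower N hN1 A hA α hα hcard (F.H d)
    (by rw [F.natDegree_H d hd]; exact hk)
    (by rw [F.natDegree_H d hd]; exact fun j hj => F.coeff_pos d hd j hj) M hM1 hMP hav
  -- arcs
  have hrad1 : 2 * ((K : ℝ) / N) ≤ 1 := by
    rw [← mul_div_assoc, div_le_one hNpos]
    have : (K : ℝ) ≤ (K : ℝ) ^ 3 := by
      calc (K : ℝ) = (K : ℝ) ^ 1 := (pow_one _).symm
        _ ≤ (K : ℝ) ^ 3 := pow_le_pow_right₀ hK1 (by norm_num)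
    linarith
  have hrad2 : 2 * ((K : ℝ) / N) * (K : ℝ) ^ 2 < 1 := by
    have e1 : 2 * ((K : ℝ) / N) * (K : ℝ) ^ 2 = 2 * (K : ℝ) ^ 3 / N := by
      field_simp
    rw [e1, div_lt_one hNpos]
    exact hKN
  have harc := arcs_integral N (bal N A) (fun θ => ‖wSum (F.H d) M θ‖)
    (continuous_norm_wSum (F.H d) M)
    W hW0 K ((K : ℝ) / N) (α / 8) (8 * (K : ℝ) ^ 2 / M)
    (by positivity) hrad1 hrad2 (by positivity) (by positivity) (fun θ => norm_nonneg _)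
    (fun θ _ _ => assemble2 hk F W hwt hmaj hd w u α N hw2 hwu hdu hα hα1 hαinv hNpos hKw
      hM1 hBw hΔw (by omega) (by omega) hME hMP hMlow.le θ)
  have hsq := sum_bal_sq N hN1 A hA α hcard
  have hsum0 : 0 ≤ ∑ n ∈ Finset.Icc (1 : ℤ) N, bal N A n ^ 2 :=
    Finset.sum_nonneg fun n _ => sq_nonneg _
  exact final_arith α N K M w _ _ _ hw0 hα hNpos hK1 hM0 hαw hKM hsum0 hsq hlow harc

end Vale.Agent.P042.UB
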