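import Vale.Agent.Lib.P042.UB.K.Defs

set_option autoImplicit false

namespace Vale.Agent.P042.UB

open Polynomial

namespace CSumWt2Aux

theorem wt2_prime_pow (C c Ch : ℝ) (p₀ p j : ℕ) (hp : p.Prime) (hj : 0 < j) :
    wt2 C c Ch p₀ (p ^ j) = om2 C c Ch p₀ p j := by
  unfold wt2
  rw [hp.factorization_pow, Finsupp.prod, Finsupp.support_single _ hj.ne',
    Finset.prod_singleton, Finsupp.single_eq_same]

/-- Removing the constant term and a common factor. -/
theorem norm_cSum_factor (g g₁ : ℤ[X]) (t : ℤ) (hg : g = C (g.coeff 0) + C t * g₁) (a : ℤ)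
    (q : ℕ) : ‖cSum g a q‖ = ‖cSum g₁ (a * t) q‖ := by
  have h1 : cSum g a q = e ((a : ℝ) * ((g.coeff 0 : ℤ) : ℝ) / (q : ℝ)) * cSum g₁ (a * t) q := by
    unfold cSum
    rw [← mul_div_assoc, Finset.mul_sum]
    congr 1
    refine Finset.sum_congr rfl fun x _ => ?_
    rw [← e_add]
    congr 1
    have h2 : g.eval (x : ℤ) = g.coeff 0 + t * g₁.eval (x : ℤ) := by
      conv_lhs => rw [hg]
      simp
    rw [h2]
    push_cast
    ring
  rw [h1, norm_mul, norm_e, one_mul]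

/-- From a bound for a power to a bound with a real exponent. -/
theorem le_rpow_of_pow {x B D : ℝ} {C₀ M p j : ℕ} (hx0 : 0 ≤ x) (hx1 : x ≤ 1) (hC₀ : 1 ≤ C₀)
    (hM : C₀ ≤ M) (hp : 0 < p) (hD : 1 ≤ D) (hB : 2 * D ≤ B)
    (h : x ^ C₀ * (p : ℝ) ^ j ≤ 2 ^ C₀ * D) : x ≤ B * (p : ℝ) ^ (-((1 / (M : ℝ)) * j)) := by
  have hp0 : (0 : ℝ) < p := by exact_mod_cast hp
  have hM0 : (0 : ℝ) < M := by
    have : 0 < M := by omega
    exact_mod_cast this
  have hB0 : 0 < B := by linarith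
  have hpj : (0 : ℝ) < (p : ℝ) ^ j := pow_pos hp0 j
  have h3 : (B * (p : ℝ) ^ (-((1 / (M : ℝ)) * j))) ^ M = B ^ M / (p : ℝ) ^ j := by
    rw [mul_pow, ← Real.rpow_natCast ((p : ℝ) ^ (-((1 / (M : ℝ)) * j))) M,
      ← Real.rpow_mul hp0.le]
    have : -((1 / (M : ℝ)) * j) * M = -(j : ℝ) := by field_simp
    rw [this, Real.rpow_neg hp0.le, Real.rpow_natCast]
    rfl
  refine le_of_pow_le_pow_left₀ (show M ≠ 0 by omega) (by positivity) ?_
  rw [h3, le_div_iff₀ hpj]
  calc x ^ M * (p : ℝ) ^ j ≤ x ^ C₀ * (p : ℝ) ^ j :=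
        mul_le_mul_of_nonneg_right (pow_le_pow_of_le_one hx0 hx1 hM) hpj.le
    _ ≤ 2 ^ C₀ * D := h
    _ ≤ 2 ^ C₀ * D ^ C₀ := by
        gcongr
        exact le_self_pow₀ hD (by omega)
    _ = (2 * D) ^ C₀ := by rw [mul_pow]
    _ ≤ B ^ C₀ := by gcongr
    _ ≤ B ^ M := pow_le_pow_right₀ (by linarith) hM

end CSumWt2Aux

/-- Prime powers prime to the content: the constant depends on `k` only.

PROOF. Let `t ≥ 1` be the gcd of the nonconstant coefficients of `g` (not all zero, by `hΔ`);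
`p ∤ t` since otherwise `p ∣ g_j` for all `j ≥ 1` and `p ≤ Δ`. Write `g = g_0 + t g₁` with
`g₁ ∈ ℤ[X]` of content `1` (no integer `≥ 2` divides all its nonconstant coefficients). Then
`cSum g a (p^j) = e(a g_0/p^j) cSum g₁ (a t) (p^j)` and `complete_bound k` applies to `g₁` with
`Δ = 1`. -/
theorem cSum_prime_pow_le (k : ℕ) (hk : 1 ≤ k) : ∃ C : ℕ, 1 ≤ C ∧ ∀ (g : ℤ[X]) (Δ : ℕ),
    g.natDegree ≤ k → (∀ t : ℕ, (∀ j : ℕ, 1 ≤ j → (t : ℤ) ∣ g.coeff j) → t ≤ Δ) →
    ∀ (p j : ℕ) (a : ℤ), p.Prime → Δ < p → IsCoprime a (p : ℤ) →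
      ‖cSum g a (p ^ j)‖ ^ C * ((p : ℝ) ^ j) ≤ 2 ^ C := by
  obtain ⟨C₀, hC₀, hcb⟩ := complete_bound k hk
  refine ⟨C₀, hC₀, ?_⟩
  intro g Δ hg hΔ p j a hp hΔp ha
  set f : ℤ[X] := g - C (g.coeff 0) with hf
  have hf0 : f.coeff 0 = 0 := by rw [hf]; simp
  have hfj : ∀ j : ℕ, 1 ≤ j → f.coeff j = g.coeff j := by
    intro j hj
    rw [hf, coeff_sub, coeff_C_of_ne_zero (by omega), sub_zero]
  have hfne : f ≠ 0 := by
    intro h0
    have := hΔ (Δ + 1) (fun j hj => by rw [← hfj j hj, h0]; simp)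
    omega
  set t := f.content with ht
  have ht0 : t ≠ 0 := by
    rw [ht, Ne, content_eq_zero_iff]
    exact hfne
  set g₁ := f.primPart with hg₁
  have hfac : f = C t * g₁ := f.eq_C_content_mul_primPart
  have hgfac : g = C (g.coeff 0) + C t * g₁ := by
    rw [← hfac, hf]
    ring
  have hdeg : g₁.natDegree ≤ k := by
    rw [hg₁, natDegree_primPart, hf, natDegree_sub_C]
    exact hg
  have hprim : g₁.content = 1 := f.isPrimitive_primPart.content_eq_one
  have hg₁0 : g₁.coeff 0 = 0 := by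
    have := congrArg (fun q : ℤ[X] => q.coeff 0) hfac
    simp only [coeff_C_mul] at this
    rw [hf0] at this
    rcases mul_eq_zero.1 this.symm with h | h
    · exact absurd h ht0
    · exact h
  have hcont : ∀ t' : ℕ, (∀ j : ℕ, 1 ≤ j → (t' : ℤ) ∣ g₁.coeff j) → t' ≤ 1 := by
    intro t' h
    have h1 : (t' : ℤ) ∣ g₁.content := by
      rw [dvd_content_iff_C_dvd, C_dvd_iff_dvd_coeff]
      intro j
      rcases Nat.eq_zero_or_pos j with hj | hj
      · rw [hj, hg₁0]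
        exact dvd_zero _
      · exact h j hj
    rw [hprim] at h1
    have h2 := Int.le_of_dvd one_pos h1
    exact_mod_cast h2
  have hpt : ¬ (p : ℤ) ∣ t := by
    intro h
    have : p ≤ Δ := by
      apply hΔ p
      intro j hj
      rw [← hfj j hj, hfac, coeff_C_mul]
      exact Dvd.dvd.mul_right h _
    omega
  have hpz : Prime (p : ℤ) := Nat.prime_iff_prime_int.1 hp
  have htp : IsCoprime t (p : ℤ) := ((hpz.irreducible.coprime_iff_not_dvd).2 hpt).symm
  have hat : IsCoprime (a * t) ((p ^ j : ℕ) : ℤ) := by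
    rw [Nat.cast_pow]
    exact (ha.mul_left htp).pow_right
  have h1 := hcb g₁ 1 hdeg hcont (p ^ j) (a * t) (Nat.one_le_pow _ _ hp.pos) hat
  rw [CSumWt2Aux.norm_cSum_factor g g₁ t hgfac a (p ^ j)]
  simpa using h1

/-- All complete sums of the family are bounded by the weight `wt2`, with `C, c` depending on the
degree only.

PROOF. As `cSum_le_wt` (see its proof in `CSumWt.lean`), with `p₀ = max k Δ`: for `p ≤ p₀` use
`complete_bound` (constant `Ch = 2 Δ^{1/C₀}` or larger), for `p > p₀` use `cSum_prime_pow_le`,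
`cSum_prime_pow` (`j ≥ 2`) and `weil_bound` (`j = 1`), all with constants depending on `k` only.
`c = 1/C₀` must be the same in both ranges: take `C₀` the maximum of the two exponents (raising
`‖cSum‖ ≤ 1` to a larger power keeps the bounds), or `c` the minimum. -/
theorem cSum_le_wt2 (k : ℕ) (hk : 1 ≤ k) :
    ∃ C c : ℝ, 1 ≤ C ∧ 0 < c ∧ c ≤ 1 ∧ ∀ F : AuxFamily k, ∃ (Ch : ℝ) (p₀ : ℕ), 1 ≤ Ch ∧
      ∀ (d q : ℕ) (a : ℤ), 0 < d → 0 < q → IsCoprime a (q : ℤ) →
        ‖cSum (F.H d) a q‖ ≤ wt2 C c Ch p₀ q := by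
  obtain ⟨C₀, hC₀, hcb⟩ := complete_bound k hk
  obtain ⟨C₁, hC₁, hcp⟩ := cSum_prime_pow_le k hk
  obtain ⟨M, hM⟩ : ∃ M, M = max C₀ C₁ := ⟨_, rfl⟩
  have hM0 : C₀ ≤ M := hM ▸ le_max_left _ _
  have hM1 : C₁ ≤ M := hM ▸ le_max_right _ _
  have hMr : (1 : ℝ) ≤ M := by
    have : 1 ≤ M := by omega
    exact_mod_cast this
  have hMp : (0 : ℝ) < M := by linarith
  have hk' : (1 : ℝ) ≤ k := by exact_mod_cast hk
  set C : ℝ := 2 + k with hC
  set c : ℝ := 1 / M with hc
  have hCpos : 0 < C := by linarith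
  refine ⟨C, c, by linarith, by positivity, ?_, ?_⟩
  · rw [hc, div_le_one hMp]; exact hMr
  intro F
  have hΔ1 : 1 ≤ F.Δ := F.content 1 one_pos 1 (fun j _ => by simp)
  have hΔ1' : (1 : ℝ) ≤ F.Δ := by exact_mod_cast hΔ1
  refine ⟨2 * F.Δ, max k F.Δ, by linarith, ?_⟩
  intro d q a hd hq
  set Ch : ℝ := 2 * F.Δ with hCh
  set p₀ := max k F.Δ with hp₀
  have hdeg : (F.H d).natDegree ≤ k := (F.natDegree_H d hd).le
  have hcont := F.content d hd
  -- the prime power case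
  have hpp : ∀ p j : ℕ, p.Prime → 0 < j → ∀ a : ℤ, IsCoprime a ((p ^ j : ℕ) : ℤ) →
      ‖cSum (F.H d) a (p ^ j)‖ ≤ om2 C c Ch p₀ p j := by
    intro p j hp hj a ha
    have hle1 := norm_cSum_le_one (F.H d) a (p ^ j)
    have hap : IsCoprime a (p : ℤ) := by
      rw [Nat.cast_pow] at ha
      exact (IsCoprime.pow_right_iff hj).1 ha
    unfold om2
    split_ifs with hpp0
    · refine le_min hle1 ?_
      have h1 := hcb (F.H d) F.Δ hdeg hcont (p ^ j) a (Nat.one_le_pow _ _ hp.pos) ha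
      rw [Nat.cast_pow] at h1
      exact CSumWt2Aux.le_rpow_of_pow (norm_nonneg _) hle1 hC₀ hM0 hp.pos hΔ1' le_rfl h1
    · have hbig : max k F.Δ < p := not_le.1 hpp0
      have hkp : k < p := lt_of_le_of_lt (le_max_left _ _) hbig
      have hΔp : F.Δ < p := lt_of_le_of_lt (le_max_right _ _) hbig
      have hkC : (k : ℝ) ≤ C := by linarith
      unfold om
      refine le_min hle1 (le_min ?_ ?_)
      · have h1 := hcp (F.H d) F.Δ hdeg hcont p j a hp hΔp hap
        refine CSumWt2Aux.le_rpow_of_pow (D := 1) (norm_nonneg _) hle1 hC₁ hM1 hp.pos le_rfl ?_ ?_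
        · linarith
        · rw [mul_one]
          exact h1
      · split_ifs with hj1
        · subst hj1
          rw [pow_one]
          refine (norm_cSum_prime_le (F.H d) k F.Δ hdeg hcont p hp hkp hΔp a hap).trans ?_
          gcongr
        · refine (cSum_prime_pow (F.H d) k F.Δ hdeg hcont p hp hkp hΔp j (by omega) a hap).trans ?_
          gcongr
  -- induction
  have hChp : 0 ≤ Ch := by linarith
  revert a
  induction q using Nat.recOnPosPrimePosCoprime with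
  | prime_pow p n hp hn =>
    intro a ha
    rw [CSumWt2Aux.wt2_prime_pow C c Ch p₀ p n hp hn]
    exact hpp p n hp hn a ha
  | zero => exact absurd hq (lt_irrefl 0)
  | one =>
    intro a ha
    rw [wt2_one]
    exact norm_cSum_le_one _ _ _
  | coprime x y hx hy hxy ihx ihy =>
    intro a ha
    have hx0 : 0 < x := by omega
    have hy0 : 0 < y := by omega
    obtain ⟨a₁, a₂, ha₁, ha₂, heq⟩ := cSum_mul (F.H d) x y hx0 hy0 hxy a ha
    rw [heq, norm_mul, wt2_mul C c Ch p₀ x y hxy]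
    exact mul_le_mul (ihx hx0 a₁ ha₁) (ihy hy0 a₂ ha₂) (norm_nonneg _)
      (wt2_nonneg C c Ch p₀ hCpos.le hChp x)

end Vale.Agent.P042.UB
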