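import Vale.Agent.Lib.P042.UB.K.Defs
import Vale.Agent.Lib.P042.UB.Combine

set_option autoImplicit false

namespace Vale.Agent.P042.UB

/-- Combination of the divisor weights with nonnegative energies, for any multiplicative weight
`w` (same proof as `combine` in `Combine.lean`). -/
theorem combine2 (w : ℕ → ℝ) (hw : ∀ q, 0 ≤ w q)
    (hmul : ∀ q₁ q₂ : ℕ, q₁.Coprime q₂ → w (q₁ * q₂) = w q₁ * w q₂) (K P : ℕ) (DD : Finset ℕ)
    (ϖ : ℕ → ℝ) (hϖ : ∀ D, 0 ≤ ϖ D) (hD1 : ∀ D ∈ DD, 1 ≤ D)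
    (hDD : ∀ q₁ q₂ : ℕ, 1 ≤ q₁ → 1 ≤ q₂ → q₁ * q₂ ≤ K → q₁.Coprime q₂ →
      (∀ p : ℕ, p.Prime → P < p → p ∣ q₁ → p ^ 2 ∣ q₁) →
      (∀ p : ℕ, p.Prime → p ∣ q₂ → P < p) →
      w q₁ ≤ 4 * ∑ D ∈ DD.filter (fun D => q₁ ∣ D ∧ q₂.Coprime D), ϖ D)
    (E : ℕ → ℝ) (hE : ∀ q, 0 ≤ E q) :
    ∑ q ∈ Finset.Icc 1 K, w q * E q ≤
      4 * ∑ D ∈ DD, ϖ D * ∑ q₂ ∈ (Finset.Icc 1 K).filter (fun q₂ => Squarefree q₂ ∧
        (∀ p ∈ q₂.primeFactors, P < p) ∧ q₂.Coprime D), w q₂ *
          ∑ q₁ ∈ D.divisors.filter (fun q₁ => q₁ * q₂ ≤ K), E (q₁ * q₂) := by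
  have hmulw := hmul
  have hterm : ∀ q ∈ Finset.Icc 1 K, w q * E q ≤
      4 * ∑ D ∈ DD, ϖ D * (if smoothPart P q ∣ D ∧ (roughPart P q).Coprime D then
        w (roughPart P q) * E q else 0) := by
    intro q hq
    obtain ⟨hq1, hqK⟩ := Finset.mem_Icc.1 hq
    have hmul := smooth_mul_rough P q (by omega)
    have h1 : 1 ≤ smoothPart P q := by
      rcases Nat.eq_zero_or_pos (smoothPart P q) with h | h
      · rw [h, zero_mul] at hmul; omega
      · exact h
    have h2 : 1 ≤ roughPart P q := by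
      rcases Nat.eq_zero_or_pos (roughPart P q) with h | h
      · rw [h, mul_zero] at hmul; omega
      · exact h
    have hco := coprime_smooth_rough P q
    have hww : w q = w (smoothPart P q) * w (roughPart P q) := by
      conv_lhs => rw [← hmul]
      exact hmulw _ _ hco
    have hb := hDD (smoothPart P q) (roughPart P q) h1 h2 (by rw [hmul]; exact hqK) hco
      (fun p hp hP hd => prime_dvd_smoothPart P q p hp hP hd)
      (fun p hp hd => prime_dvd_roughPart P q p hp hd)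
    have hnn : 0 ≤ w (roughPart P q) * E q := mul_nonneg (hw _) (hE q)
    calc w q * E q = w (smoothPart P q) * (w (roughPart P q) * E q) := by
          rw [hww]; ring
      _ ≤ (4 * ∑ D ∈ DD.filter (fun D => smoothPart P q ∣ D ∧ (roughPart P q).Coprime D), ϖ D) *
            (w (roughPart P q) * E q) := mul_le_mul_of_nonneg_right hb hnn
      _ = 4 * ∑ D ∈ DD, ϖ D * (if smoothPart P q ∣ D ∧ (roughPart P q).Coprime D then
            w (roughPart P q) * E q else 0) := by
          rw [mul_assoc, Finset.sum_mul, Finset.sum_filter]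
          congr 1
          refine Finset.sum_congr rfl fun D _ => ?_
          split_ifs <;> simp
  refine (Finset.sum_le_sum hterm).trans ?_
  rw [← Finset.mul_sum, Finset.sum_comm]
  refine mul_le_mul_of_nonneg_left (Finset.sum_le_sum fun D hD => ?_) (by norm_num)
  rw [← Finset.mul_sum]
  refine mul_le_mul_of_nonneg_left ?_ (hϖ D)
  -- the inner inequality
  simp only [Finset.mul_sum]
  rw [Finset.sum_sigma', ← Finset.sum_filter]
  have hinj : Set.InjOn (fun q : ℕ => (⟨roughPart P q, smoothPart P q⟩ : (_ : ℕ) × ℕ))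
      (((Finset.Icc 1 K).filter (fun q => smoothPart P q ∣ D ∧ (roughPart P q).Coprime D) :
        Finset ℕ) : Set ℕ) := by
    intro q hq q' hq' h
    have hq0 := (Finset.mem_Icc.1 (Finset.mem_filter.1 (Finset.mem_coe.1 hq)).1).1
    have hq0' := (Finset.mem_Icc.1 (Finset.mem_filter.1 (Finset.mem_coe.1 hq')).1).1
    simp only [Sigma.mk.injEq, heq_eq_eq] at h
    rw [← smooth_mul_rough P q (by omega), ← smooth_mul_rough P q' (by omega), h.1, h.2]
  have himg : ∑ q ∈ (Finset.Icc 1 K).filter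
      (fun q => smoothPart P q ∣ D ∧ (roughPart P q).Coprime D),
        w (roughPart P q) * E q =
      ∑ x ∈ ((Finset.Icc 1 K).filter
        (fun q => smoothPart P q ∣ D ∧ (roughPart P q).Coprime D)).image
          (fun q : ℕ => (⟨roughPart P q, smoothPart P q⟩ : (_ : ℕ) × ℕ)),
        w x.1 * E (x.2 * x.1) := by
    rw [Finset.sum_image hinj]
    refine Finset.sum_congr rfl fun q hq => ?_
    have hq0 := (Finset.mem_Icc.1 (Finset.mem_filter.1 hq).1).1
    simp only
    rw [smooth_mul_rough P q (by omega)]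
  rw [himg]
  refine Finset.sum_le_sum_of_subset_of_nonneg ?_ fun x _ _ =>
    mul_nonneg (hw _) (hE _)
  intro x hx
  obtain ⟨q, hq, rfl⟩ := Finset.mem_image.1 hx
  obtain ⟨hqI, hdv, hcop⟩ := Finset.mem_filter.1 hq
  obtain ⟨hq1, hqK⟩ := Finset.mem_Icc.1 hqI
  have hmul := smooth_mul_rough P q (by omega)
  have h2 : 1 ≤ roughPart P q := by
    rcases Nat.eq_zero_or_pos (roughPart P q) with h | h
    · rw [h, mul_zero] at hmul; omega
    · exact h
  have hle : roughPart P q ≤ K :=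
    (Nat.le_of_dvd (by omega) (Dvd.intro_left _ hmul)).trans hqK
  refine Finset.mem_sigma.2 ⟨Finset.mem_filter.2 ⟨Finset.mem_Icc.2 ⟨h2, hle⟩,
    roughPart_squarefree P q, ?_, hcop⟩, ?_⟩
  · intro p hp
    exact prime_dvd_roughPart P q p (Nat.prime_of_mem_primeFactors hp)
      (Nat.dvd_of_mem_primeFactors hp)
  · refine Finset.mem_filter.2 ⟨Nat.mem_divisors.2 ⟨hdv, ?_⟩, ?_⟩
    · have := hD1 D hD
      omega
    · simp only
      rw [hmul]
      exact hqK

end Vale.Agent.P042.UB
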