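import Vale.Agent.Lib.P042.UB.CSumWt

set_option autoImplicit false

namespace Vale.Agent.P042.UB

open Polynomial

/-- The local bound, with a separate constant `Ch` for the primes `p ≤ p₀`. -/
noncomputable def om2 (C c Ch : ℝ) (p₀ p j : ℕ) : ℝ :=
  if p ≤ p₀ then min 1 (Ch * (p : ℝ) ^ (-(c * j))) else om C c p j

/-- The multiplicative majorant with separate constant for small primes. -/
noncomputable def wt2 (C c Ch : ℝ) (p₀ q : ℕ) : ℝ :=
  q.factorization.prod (fun p j => om2 C c Ch p₀ p j)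

theorem om2_nonneg (C c Ch : ℝ) (p₀ : ℕ) (hC : 0 ≤ C) (hCh : 0 ≤ Ch) (p j : ℕ) :
    0 ≤ om2 C c Ch p₀ p j := by
  unfold om2
  split_ifs
  · exact le_min zero_le_one (mul_nonneg hCh (Real.rpow_nonneg (Nat.cast_nonneg _) _))
  · exact om_nonneg C c hC p j

theorem om2_le_one (C c Ch : ℝ) (p₀ p j : ℕ) : om2 C c Ch p₀ p j ≤ 1 := by
  unfold om2
  split_ifs
  · exact min_le_left _ _
  · exact om_le_one C c p j

theorem wt2_nonneg (C c Ch : ℝ) (p₀ : ℕ) (hC : 0 ≤ C) (hCh : 0 ≤ Ch) (q : ℕ) :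
    0 ≤ wt2 C c Ch p₀ q := by
  unfold wt2 Finsupp.prod
  exact Finset.prod_nonneg fun p _ => om2_nonneg C c Ch p₀ hC hCh p _

theorem wt2_le_one (C c Ch : ℝ) (p₀ : ℕ) (hC : 0 ≤ C) (hCh : 0 ≤ Ch) (q : ℕ) :
    wt2 C c Ch p₀ q ≤ 1 := by
  unfold wt2 Finsupp.prod
  exact Finset.prod_le_one (fun p _ => om2_nonneg C c Ch p₀ hC hCh p _)
    fun p _ => om2_le_one C c Ch p₀ p _

theorem wt2_one (C c Ch : ℝ) (p₀ : ℕ) : wt2 C c Ch p₀ 1 = 1 := by
  simp [wt2]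

theorem wt2_mul (C c Ch : ℝ) (p₀ q₁ q₂ : ℕ) (hc : q₁.Coprime q₂) :
    wt2 C c Ch p₀ (q₁ * q₂) = wt2 C c Ch p₀ q₁ * wt2 C c Ch p₀ q₂ := by
  unfold wt2
  rw [Nat.factorization_mul_of_coprime hc]
  exact Finsupp.prod_add_index_of_disjoint (Nat.Coprime.disjoint_primeFactors hc) _

/-- On integers all of whose prime factors exceed `p₀` the two weights agree. -/
theorem wt2_eq_wt (C c Ch : ℝ) (p₀ q : ℕ) (hq : ∀ p ∈ q.primeFactors, p₀ < p) :
    wt2 C c Ch p₀ q = wt C c q := by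
  unfold wt2 wt Finsupp.prod
  refine Finset.prod_congr rfl fun p hp => ?_
  have := hq p (by simpa using hp)
  show om2 C c Ch p₀ p _ = om C c p _
  unfold om2
  rw [if_neg (by omega)]

end Vale.Agent.P042.UB
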