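import Vale.Agent.Lib.P042.UB.K.Defs
import Vale.Agent.Lib.P042.UB.Div

set_option autoImplicit false

namespace Vale.Agent.P042.UB

namespace Dv2

open Dv

/-- the tail probabilities, with a separate constant for the primes `p ≤ p₀` -/
noncomputable def pp2 (C c Ch : ℝ) (p₀ P J p j : ℕ) : ℝ :=
  if p ≤ p₀ then (if j = 0 then 1 else if j ≤ J then min 1 (Ch * (p : ℝ) ^ (-(c * j))) else 0)
  else pp C c P J p j

/-- the point masses -/
noncomputable def mu2 (C c Ch : ℝ) (p₀ P J p j : ℕ) : ℝ :=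
  pp2 C c Ch p₀ P J p j - pp2 C c Ch p₀ P J p (j + 1)

section tails
variable {C c Ch : ℝ} {p₀ P J p : ℕ}

theorem pp2_zero : pp2 C c Ch p₀ P J p 0 = 1 := by
  unfold pp2
  by_cases h : p ≤ p₀
  · rw [if_pos h, if_pos rfl]
  · rw [if_neg h, pp_zero]

theorem pp2_top : pp2 C c Ch p₀ P J p (J + 1) = 0 := by
  unfold pp2
  by_cases h : p ≤ p₀
  · rw [if_pos h, if_neg (by omega), if_neg (by omega)]
  · rw [if_neg h, pp_top]

theorem pp2_nonneg (hC : 1 ≤ C) (hCh : 1 ≤ Ch) (hp : 2 ≤ p) (j : ℕ) :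
    0 ≤ pp2 C c Ch p₀ P J p j := by
  have h0 : (0 : ℝ) ≤ (p : ℝ) ^ (-(c * j)) := Real.rpow_nonneg (Nat.cast_nonneg _) _
  unfold pp2
  split_ifs
  · norm_num
  · exact le_min (by norm_num) (mul_nonneg (by linarith) h0)
  · exact le_rfl
  · exact pp_nonneg hC hp j

theorem rpow_anti (hc : 0 < c) (hp : 2 ≤ p) {i j : ℕ} (hij : i ≤ j) :
    (p : ℝ) ^ (-(c * j)) ≤ (p : ℝ) ^ (-(c * i)) := by
  have h1 : (1 : ℝ) ≤ p := by exact_mod_cast (by omega : 1 ≤ p)
  refine Real.rpow_le_rpow_of_exponent_le h1 ?_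
  have : (i : ℝ) ≤ j := by exact_mod_cast hij
  nlinarith

theorem pp2_succ_le (hC : 1 ≤ C) (hc : 0 < c) (hCh : 1 ≤ Ch) (hp : 2 ≤ p) (j : ℕ) :
    pp2 C c Ch p₀ P J p (j + 1) ≤ pp2 C c Ch p₀ P J p j := by
  by_cases hp0 : p ≤ p₀
  · by_cases h0 : j = 0
    · subst h0
      rw [pp2_zero]
      unfold pp2
      rw [if_pos hp0, if_neg (by omega)]
      split_ifs
      · exact min_le_left _ _
      · norm_num
    · by_cases h1 : j + 1 ≤ J
      · unfold pp2
        rw [if_pos hp0, if_pos hp0, if_neg (by omega), if_pos h1, if_neg h0,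
          if_pos (by omega)]
        exact min_le_min le_rfl (mul_le_mul_of_nonneg_left
          (rpow_anti hc hp (Nat.le_succ j)) (by linarith))
      · have : pp2 C c Ch p₀ P J p (j + 1) = 0 := by
          unfold pp2; rw [if_pos hp0, if_neg (by omega), if_neg h1]
        rw [this]
        exact pp2_nonneg hC hCh hp j
  · unfold pp2
    rw [if_neg hp0, if_neg hp0]
    exact pp_succ_le hC hc hp j

theorem mu2_nonneg (hC : 1 ≤ C) (hc : 0 < c) (hCh : 1 ≤ Ch) (hp : 2 ≤ p) (j : ℕ) :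
    0 ≤ mu2 C c Ch p₀ P J p j :=
  sub_nonneg.mpr (pp2_succ_le hC hc hCh hp j)

theorem sum_mu2 {v : ℕ} (hv : v ≤ J) :
    ∑ j ∈ Finset.range (J + 1), (if v ≤ j then mu2 C c Ch p₀ P J p j else 0) =
      pp2 C c Ch p₀ P J p v := by
  rw [sum_filter_eq]
  unfold mu2
  rw [telescope _ v J hv, pp2_top, sub_zero]

/-- geometric decay of the tails at a small prime -/
theorem pp2_add_le (hc : 0 < c) (hCh : 1 ≤ Ch) (hp : 2 ≤ p) (hp0 : p ≤ p₀)
    {v : ℕ} (i : ℕ) (hi : 1 ≤ i) (hvi : v + i ≤ J) :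
    pp2 C c Ch p₀ P J p (v + i) ≤ Ch * ((2 : ℝ) ^ (-c)) ^ i * pp2 C c Ch p₀ P J p v := by
  have h2p : (2 : ℝ) ≤ p := by exact_mod_cast hp
  have hpp : (0 : ℝ) < p := by linarith
  have e0 : ((2 : ℝ) ^ (-c)) ^ i = (2 : ℝ) ^ (-(c * i)) := by
    rw [← Real.rpow_natCast, ← Real.rpow_mul (by norm_num)]
    congr 1; ring
  have h1 : (p : ℝ) ^ (-(c * i)) ≤ (2 : ℝ) ^ (-(c * i)) :=
    Real.rpow_le_rpow_of_nonpos (by norm_num) h2p (by
      have : (0 : ℝ) ≤ i := Nat.cast_nonneg i
      nlinarith)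
  have h2 : (0 : ℝ) < (p : ℝ) ^ (-(c * i)) := Real.rpow_pos_of_pos hpp _
  have e1 : pp2 C c Ch p₀ P J p (v + i) =
      min 1 (Ch * (p : ℝ) ^ (-(c * (v + i : ℕ)))) := by
    unfold pp2
    rw [if_pos hp0, if_neg (by omega), if_pos hvi]
  have e2 : (p : ℝ) ^ (-(c * (v + i : ℕ))) = (p : ℝ) ^ (-(c * v)) * (p : ℝ) ^ (-(c * i)) := by
    rw [← Real.rpow_add hpp]
    congr 1; push_cast; ring
  have h3 : (p : ℝ) ^ (-(c * v)) ≤ 1 := Real.rpow_le_one_of_one_le_of_nonpos (by linarith)
    (by have : (0 : ℝ) ≤ v := Nat.cast_nonneg v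
        nlinarith)
  have h3' : 0 < (p : ℝ) ^ (-(c * v)) := Real.rpow_pos_of_pos hpp _
  have h4 : pp2 C c Ch p₀ P J p (v + i) ≤ Ch * ((p : ℝ) ^ (-(c * v)) * (p : ℝ) ^ (-(c * i))) := by
    rw [e1, e2]
    exact min_le_right _ _
  rw [e0]
  have key : (p : ℝ) ^ (-(c * v)) ≤ pp2 C c Ch p₀ P J p v := by
    by_cases hv : v = 0
    · subst hv
      rw [pp2_zero]
      exact h3
    · have e3 : pp2 C c Ch p₀ P J p v = min 1 (Ch * (p : ℝ) ^ (-(c * v))) := by
        unfold pp2
        rw [if_pos hp0, if_neg hv, if_pos (by omega)]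
      rw [e3]
      refine le_min h3 ?_
      nlinarith
  calc pp2 C c Ch p₀ P J p (v + i)
      ≤ Ch * ((p : ℝ) ^ (-(c * v)) * (p : ℝ) ^ (-(c * i))) := h4
    _ ≤ Ch * (pp2 C c Ch p₀ P J p v * (2 : ℝ) ^ (-(c * i))) :=
        mul_le_mul_of_nonneg_left (mul_le_mul key h1 h2.le (h3'.le.trans key)) (by linarith)
    _ = _ := by ring

/-- the conditional mean of the exponent, at a small prime -/
theorem sum_mu2_mul_small (hc : 0 < c) (hCh : 1 ≤ Ch) (hC : 1 ≤ C) (hp : 2 ≤ p)
    (hp0 : p ≤ p₀) {v : ℕ} (hv : v ≤ J) :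
    ∑ j ∈ Finset.range (J + 1), (if v ≤ j then mu2 C c Ch p₀ P J p j else 0) * (j : ℝ) ≤
      (v + Ch * (1 - (2 : ℝ) ^ (-c))⁻¹) * pp2 C c Ch p₀ P J p v := by
  set r : ℝ := (2 : ℝ) ^ (-c) with hr
  have hr0 : 0 < r := Real.rpow_pos_of_pos (by norm_num) _
  have hr1 : r < 1 := Real.rpow_lt_one_of_one_lt_of_neg (by norm_num) (by linarith)
  have e1 : ∑ j ∈ Finset.range (J + 1),
      (if v ≤ j then mu2 C c Ch p₀ P J p j else 0) * (j : ℝ) =
      ∑ j ∈ Finset.Icc v J, (pp2 C c Ch p₀ P J p j - pp2 C c Ch p₀ P J p (j + 1)) * (j : ℝ) := by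
    rw [← sum_filter_eq]
    refine Finset.sum_congr rfl fun j _ => ?_
    split_ifs
    · rfl
    · simp
  rw [e1, abel _ v J hv, pp2_top, mul_zero, sub_zero]
  have hw0 := pp2_nonneg (c := c) (p₀ := p₀) (P := P) (J := J) hC hCh hp v
  have h1 : ∀ j ∈ Finset.Ioc v J, pp2 C c Ch p₀ P J p j ≤
      Ch * pp2 C c Ch p₀ P J p v * r ^ (j - v) := by
    intro j hj
    rw [Finset.mem_Ioc] at hj
    have := pp2_add_le (C := C) (P := P) (J := J) hc hCh hp hp0 (v := v) (j - v) (by omega)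
      (by omega)
    rw [Nat.add_sub_cancel' hj.1.le] at this
    refine this.trans (le_of_eq ?_)
    ring
  have h2 : ∑ j ∈ Finset.Ioc v J, r ^ (j - v) ≤ (1 - r)⁻¹ := by
    have hinj : Set.InjOn (fun j => j - v) (Finset.Ioc v J : Set ℕ) := by
      intro a ha b hb hab
      simp only [Finset.coe_Ioc, Set.mem_Ioc] at ha hb hab
      omega
    rw [← Finset.sum_image (f := fun i => r ^ i) (g := fun j => j - v) hinj]
    exact Summable.sum_le_tsum _ (fun i _ => by positivity)
      (summable_geometric_of_lt_one hr0.le hr1) |>.trans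
      (le_of_eq (tsum_geometric_of_lt_one hr0.le hr1))
  have h3 : ∑ j ∈ Finset.Ioc v J, pp2 C c Ch p₀ P J p j ≤
      Ch * pp2 C c Ch p₀ P J p v * (1 - r)⁻¹ := by
    refine (Finset.sum_le_sum h1).trans ?_
    rw [← Finset.mul_sum]
    exact mul_le_mul_of_nonneg_left h2 (mul_nonneg (by linarith) hw0)
  calc v * pp2 C c Ch p₀ P J p v + ∑ j ∈ Finset.Ioc v J, pp2 C c Ch p₀ P J p j
      ≤ v * pp2 C c Ch p₀ P J p v + Ch * pp2 C c Ch p₀ P J p v * (1 - r)⁻¹ := by linarith
    _ = _ := by ring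

/-- the extra contribution of a small prime -/
noncomputable def ex (c Ch : ℝ) (p₀ p : ℕ) : ℝ :=
  if p ≤ p₀ then Ch * (1 - (2 : ℝ) ^ (-c))⁻¹ else 0

theorem sum_mu2_mul (hC : 1 ≤ C) (hc : 0 < c) (hCh : 1 ≤ Ch) (hp : 2 ≤ p) {v : ℕ} (hv : v ≤ J) :
    ∑ j ∈ Finset.range (J + 1), (if v ≤ j then mu2 C c Ch p₀ P J p j else 0) * (j : ℝ) ≤
      (C * (2 / (1 - (2 : ℝ) ^ (-c))) * av P p + (1 + C * (2 / (1 - (2 : ℝ) ^ (-c)))) * v +
        ex c Ch p₀ p) * pp2 C c Ch p₀ P J p v := by
  have hr1 : (2 : ℝ) ^ (-c) < 1 := Real.rpow_lt_one_of_one_lt_of_neg (by norm_num) (by linarith)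
  set C2 := 2 / (1 - (2 : ℝ) ^ (-c)) with hC2
  have hC20 : 0 < C2 := div_pos (by norm_num) (by linarith)
  have hCC : 0 < C * C2 := mul_pos (by linarith) hC20
  have hw0 := pp2_nonneg (c := c) (p₀ := p₀) (P := P) (J := J) hC hCh hp v
  by_cases hp0 : p ≤ p₀
  · refine (sum_mu2_mul_small hc hCh hC hp hp0 hv).trans ?_
    refine mul_le_mul_of_nonneg_right ?_ hw0
    unfold ex
    rw [if_pos hp0]
    have h1 := (av_pos (P := P) hp).le
    have h2 : (0 : ℝ) ≤ v := Nat.cast_nonneg v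
    have h3 := mul_nonneg hCC.le h1
    have h4 := mul_nonneg hCC.le h2
    linarith
  · have h := Dv.sum_mu_mul (P := P) (J := J) hC hc hp hv
    unfold ex mu2 pp2
    simp only [if_neg hp0, add_zero]
    exact h

theorem om2_le_pp2 (hC : 1 ≤ C) (hp : 2 ≤ p) {v : ℕ} (hv : 1 ≤ v)
    (hJ : v ≤ J) (hP : P < p → 2 ≤ v) : om2 C c Ch p₀ p v ≤ pp2 C c Ch p₀ P J p v := by
  unfold om2 pp2
  by_cases hp0 : p ≤ p₀
  · rw [if_pos hp0, if_pos hp0, if_neg (by omega), if_pos hJ]
  · rw [if_neg hp0, if_neg hp0]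
    exact om_le_pp hC hp hv hJ hP

end tails

/-- the total extra contribution of the small primes is bounded -/
theorem sum_ex_le (c Ch : ℝ) (hc : 0 < c) (hCh : 1 ≤ Ch) (p₀ K : ℕ) :
    ∑ i : prs K, Real.log (i : ℕ) * ex c Ch p₀ i ≤
      ((p₀ : ℝ) + 1) * (p₀ * (Ch * (1 - (2 : ℝ) ^ (-c))⁻¹)) := by
  have hr1 : (2 : ℝ) ^ (-c) < 1 := Real.rpow_lt_one_of_one_lt_of_neg (by norm_num) (by linarith)
  have hB : 0 ≤ Ch * (1 - (2 : ℝ) ^ (-c))⁻¹ :=
    mul_nonneg (by linarith) (inv_nonneg.2 (by linarith))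
  set B := Ch * (1 - (2 : ℝ) ^ (-c))⁻¹ with hBdef
  have e1 : ∑ i : prs K, Real.log (i : ℕ) * ex c Ch p₀ i =
      ∑ p ∈ prs K, Real.log (p : ℕ) * ex c Ch p₀ p :=
    Finset.sum_coe_sort (prs K) (fun p => Real.log (p : ℕ) * ex c Ch p₀ p)
  have hnn : ∀ p : ℕ, 0 ≤ Real.log (p : ℕ) * B := fun p =>
    mul_nonneg (Real.log_natCast_nonneg p) hB
  rw [e1]
  have e2 : ∀ p : ℕ, Real.log (p : ℕ) * ex c Ch p₀ p =
      if p ≤ p₀ then Real.log (p : ℕ) * B else 0 := by
    intro p
    unfold ex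
    split_ifs
    · rfl
    · rw [mul_zero]
  simp only [e2]
  rw [← Finset.sum_filter]
  have hsub : (prs K).filter (fun p => p ≤ p₀) ⊆ Finset.range (p₀ + 1) := by
    intro p hp
    rw [Finset.mem_filter] at hp
    rw [Finset.mem_range]
    omega
  refine (Finset.sum_le_sum_of_subset_of_nonneg hsub fun p _ _ => hnn p).trans ?_
  have h3 : ∀ p ∈ Finset.range (p₀ + 1), Real.log (p : ℕ) * B ≤ (p₀ : ℝ) * B := by
    intro p hp
    rw [Finset.mem_range] at hp
    refine mul_le_mul_of_nonneg_right ?_ hB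
    have h4 : Real.log (p : ℕ) ≤ p := Real.log_le_self (Nat.cast_nonneg _)
    have h5 : (p : ℝ) ≤ p₀ := by exact_mod_cast (by omega : p ≤ p₀)
    linarith
  refine (Finset.sum_le_sum h3).trans (le_of_eq ?_)
  rw [Finset.sum_const, Finset.card_range, nsmul_eq_mul]
  push_cast
  ring

end Dv2

open Dv Dv2 in
/-- Random divisor weights for the weight `wt2`: the constants `CP, CD` depend on `C, c` only.

PROOF. As `exists_divisor_weights` (see `Div.lean`), with `P(e_p ≥ j) = min(1, Ch p^{-cj})` for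
`p ≤ p₀` (`p₀ ≤ P` if `K₀` is large, since `P ≥ CP log K₀`). The primes `p ≤ p₀` contribute to
the conditional expectation of `log D` given `q₁ ∣ D` at most
`log q₁ + ∑_{p ≤ p₀} log p · ∑_i sup_v π_{p,v+i}/π_{p,v} ≤ log K + E` with `E` depending on
`Ch, c, p₀` only (`sum_i ≤ log Ch/(c log p) + 1/(1 - p^{-c})`-type bound), and
`E ≤ log K` for `K ≥ K₀`. -/
theorem exists_divisor_weights2 (C c : ℝ) (hC : 1 ≤ C) (hc : 0 < c) (hc1 : c ≤ 1) :
    ∃ CP CD : ℝ, 0 < CP ∧ 0 < CD ∧ ∀ (Ch : ℝ) (p₀ : ℕ), 1 ≤ Ch → ∃ K₀ : ℕ, ∀ K P : ℕ,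
      K₀ ≤ K → 2 ≤ K → CP * Real.log K ≤ (P : ℝ) →
      ∃ (DD : Finset ℕ) (ϖ : ℕ → ℝ),
        (∀ D ∈ DD, 1 ≤ D ∧ Real.log D ≤ CD * (Real.sqrt P + Real.log K)) ∧
        (∀ D, 0 ≤ ϖ D) ∧ ∑ D ∈ DD, ϖ D ≤ 1 ∧
        ∀ q₁ q₂ : ℕ, 1 ≤ q₁ → 1 ≤ q₂ → q₁ * q₂ ≤ K → q₁.Coprime q₂ →
          (∀ p : ℕ, p.Prime → P < p → p ∣ q₁ → p ^ 2 ∣ q₁) →
          (∀ p : ℕ, p.Prime → p ∣ q₂ → P < p) →
          wt2 C c Ch p₀ q₁ ≤ 4 * ∑ D ∈ DD.filter (fun D => q₁ ∣ D ∧ q₂.Coprime D), ϖ D := by
  have hr1 : (2 : ℝ) ^ (-c) < 1 := Real.rpow_lt_one_of_one_lt_of_neg (by norm_num) (by linarith)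
  set C3 : ℝ := C * (2 / (1 - (2 : ℝ) ^ (-c))) with hC3
  have hC30 : 0 < C3 := mul_pos (by linarith) (div_pos (by norm_num) (by linarith))
  have hl4 : 0 < Real.log 4 := Real.log_pos (by norm_num)
  set CD : ℝ := 4 * (C3 * (4 * Real.log 4 + 2) + (1 + C3) + 1) with hCD
  have hCD0 : 0 < CD := by positivity
  refine ⟨4 * C, CD, by linarith, hCD0, ?_⟩
  intro Ch p₀ hCh
  set Ex : ℝ := ((p₀ : ℝ) + 1) * (p₀ * (Ch * (1 - (2 : ℝ) ^ (-c))⁻¹)) with hEx
  refine ⟨⌈Real.exp (p₀ + Ex)⌉₊, ?_⟩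
  intro K P hK0 hK hP
  have hEx0 : 0 ≤ Ex := by
    have h1 : 0 ≤ (1 - (2 : ℝ) ^ (-c))⁻¹ := inv_nonneg.2 (by linarith)
    positivity
  have hlogKE : (p₀ : ℝ) + Ex ≤ Real.log K := by
    have h1 : Real.exp (p₀ + Ex) ≤ K := (Nat.le_ceil _).trans (by exact_mod_cast hK0)
    have h2 := Real.log_le_log (Real.exp_pos _) h1
    rwa [Real.log_exp] at h2
  have hlogK : 0 < Real.log K := Real.log_pos (by exact_mod_cast (by omega : 1 < K))
  set L : ℝ := CD * (Real.sqrt P + Real.log K) with hL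
  have hL0 : 0 < L := mul_pos hCD0 (by positivity)
  have hP0 : (0 : ℝ) < P := lt_of_lt_of_le (by positivity) hP
  have hp₀P : p₀ ≤ P := by
    have h1 : (p₀ : ℝ) ≤ P := by nlinarith
    exact_mod_cast h1
  set E := Fintype.piFinset (fun _ : prs K => Finset.range (K + 1)) with hE
  set G : (prs K → ℕ) → ℝ := fun e => ∏ i : prs K, mu2 C c Ch p₀ P K i (e i) with hG
  have hp2 : ∀ i : prs K, 2 ≤ (i : ℕ) := fun i => (prs_prime i).two_le
  have hmu : ∀ (i : prs K) j, 0 ≤ mu2 C c Ch p₀ P K i j := fun i j => mu2_nonneg hC hc hCh (hp2 i) j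
  have hG0 : ∀ e, 0 ≤ G e := fun e => Finset.prod_nonneg fun i _ => hmu i _
  have hϖ : ∀ e : prs K → ℕ, (∏ i : prs K, mu2 C c Ch p₀ P K i ((num e).factorization i)) = G e := by
    intro e
    refine Finset.prod_congr rfl fun i _ => ?_
    rw [num_factorization]
  refine ⟨(E.filter (fun e => ∑ i : prs K, Real.log (i : ℕ) * (e i : ℝ) ≤ L)).image num,
    fun D => ∏ i : prs K, mu2 C c Ch p₀ P K i (D.factorization i), ?_, ?_, ?_, ?_⟩
  · intro D hD
    rw [Finset.mem_image] at hD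
    obtain ⟨e, he, rfl⟩ := hD
    refine ⟨num_pos e, ?_⟩
    rw [log_num]
    exact (Finset.mem_filter.mp he).2
  · intro D
    exact Finset.prod_nonneg fun i _ => hmu i _
  · rw [Finset.sum_image (fun a _ b _ h => num_injective h)]
    simp only [hϖ]
    calc ∑ e ∈ E.filter (fun e => ∑ i : prs K, Real.log (i : ℕ) * (e i : ℝ) ≤ L), G e
        ≤ ∑ e ∈ E, G e := Finset.sum_le_sum_of_subset_of_nonneg (Finset.filter_subset _ _)
          fun e _ _ => hG0 e
      _ = ∏ i : prs K, ∑ j ∈ Finset.range (K + 1), mu2 C c Ch p₀ P K i j :=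
          sum_prod K (fun (i : prs K) j => mu2 C c Ch p₀ P K i j)
      _ = ∏ i : prs K, (1 : ℝ) := by
          refine Finset.prod_congr rfl fun i _ => ?_
          have := sum_mu2 (C := C) (c := c) (Ch := Ch) (p₀ := p₀) (P := P) (J := K) (p := i) (v := 0) (Nat.zero_le _)
          simp only [Nat.zero_le, if_true, pp2_zero] at this
          exact this
      _ ≤ 1 := by simp
  · intro q₁ q₂ hq₁ hq₂ hqK hcop hsq hbig
    have hq₁K : q₁ ≤ K := le_trans (Nat.le_mul_of_pos_right _ (by omega)) hqK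
    have hq₂K : q₂ ≤ K := le_trans (Nat.le_mul_of_pos_left _ (by omega)) hqK
    set v : prs K → ℕ := fun i => q₁.factorization i with hv
    set T : Finset (prs K) := Finset.univ.filter (fun i => (i : ℕ) ∣ q₂) with hT
    have hvK : ∀ i, v i ≤ K := fun i =>
      ((Nat.factorization_lt (i : ℕ) (by omega : q₁ ≠ 0)).le).trans hq₁K
    have hvT : ∀ i ∈ T, v i = 0 := by
      intro i hi
      rw [hT, Finset.mem_filter] at hi
      refine Nat.factorization_eq_zero_of_not_dvd fun hd => ?_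
      exact Nat.not_coprime_of_dvd_of_dvd (prs_prime i).one_lt hd hi.2 hcop
    have hcardT : (2 : ℝ) ^ T.card ≤ K := by
      have h1 : T.card ≤ q₂.primeFactors.card := by
        refine Finset.card_le_card_of_injOn (fun i => (i : ℕ)) ?_ ?_
        · intro i hi
          have hi' := Finset.mem_filter.mp hi
          exact Nat.mem_primeFactors.mpr ⟨prs_prime i, hi'.2, by omega⟩
        · intro a _ b _ hab
          exact Subtype.ext hab
      have h2 : 2 ^ T.card ≤ K :=
        ((Nat.pow_le_pow_right (by norm_num) h1).trans (two_pow_card_le hq₂)).trans hq₂K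
      exact_mod_cast h2
    have hcardT' : (T.card : ℝ) ≤ 2 * Real.log K := by
      have h1 := Real.log_le_log (by positivity) hcardT
      rw [Real.log_pow] at h1
      have h2 : (1 / 2 : ℝ) ≤ Real.log 2 := by linarith [Real.log_two_gt_d9]
      have h3 : (0 : ℝ) ≤ T.card := Nat.cast_nonneg _
      nlinarith
    have hmk := markov (ι := prs K) K (fun i j => mu2 C c Ch p₀ P K i j) hmu v T
      (fun i => pp2 C c Ch p₀ P K i (v i)) (fun i => sum_mu2 (hvK i))
      (fun i hi => by simp only [hvT i hi, pp2_zero])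
      (by
        have h1 : ∀ i ∈ T, (∑ j ∈ Finset.range (K + 1),
            (if v i ≤ j then mu2 C c Ch p₀ P K i j else 0) * (if j = 0 then 0 else 1)) ≤ C / P := by
          intro i hi
          have h2 : ∑ j ∈ Finset.range (K + 1),
              (if v i ≤ j then mu2 C c Ch p₀ P K i j else 0) * (if j = 0 then 0 else 1) =
              ∑ j ∈ Finset.range (K + 1), (if 1 ≤ j then mu2 C c Ch p₀ P K i j else 0) := by
            refine Finset.sum_congr rfl fun j _ => ?_
            rw [hvT i hi]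
            rcases Nat.eq_zero_or_pos j with h | h
            · subst h; simp
            · rw [if_pos (Nat.zero_le _), if_neg (by omega), if_pos (by omega), mul_one]
          rw [h2, sum_mu2 (by omega)]
          have hi' := (Finset.mem_filter.mp hi).2
          have hPi : P < (i : ℕ) := hbig i (prs_prime i) hi'
          have h3 : pp2 C c Ch p₀ P K i 1 ≤ C * mm c P i 1 := by
            unfold pp2
            rw [if_neg (by omega)]
            exact pp_le_mm (C := C) (c := c) (P := P) (J := K) hC (hp2 i) (le_refl 1)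
          have h4 : mm c P i 1 ≤ 1 / (i : ℕ) := by
            refine (min_le_left _ _).trans ?_
            unfold av
            rw [if_neg (by omega)]
          have h5 : (1 : ℝ) / (i : ℕ) ≤ 1 / P :=
            one_div_le_one_div_of_le hP0 (by exact_mod_cast hPi.le)
          calc pp2 C c Ch p₀ P K i 1 ≤ C * mm c P i 1 := h3
            _ ≤ C * (1 / P) := mul_le_mul_of_nonneg_left (h4.trans h5) (by linarith)
            _ = C / P := by ring
        refine (Finset.sum_le_sum h1).trans ?_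
        rw [Finset.sum_const, nsmul_eq_mul, mul_div_assoc', div_le_iff₀ hP0]
        nlinarith)
      (fun i => Real.log (i : ℕ)) (fun i => Real.log_natCast_nonneg _)
      (fun i => C3 * av P i + (1 + C3) * (v i : ℝ) + ex c Ch p₀ i)
      (fun i => sum_mu2_mul hC hc hCh (hp2 i) (hvK i)) L hL0 (by
        have h1 : ∑ i : prs K, Real.log (i : ℕ) * (C3 * av P i + (1 + C3) * (v i : ℝ) +
            ex c Ch p₀ i) =
            C3 * ∑ i : prs K, Real.log (i : ℕ) * av P i +
            (1 + C3) * ∑ i : prs K, Real.log (i : ℕ) * (v i : ℝ) +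
            ∑ i : prs K, Real.log (i : ℕ) * ex c Ch p₀ i := by
          rw [Finset.mul_sum, Finset.mul_sum, ← Finset.sum_add_distrib,
            ← Finset.sum_add_distrib]
          exact Finset.sum_congr rfl fun i _ => by ring
        have hxe := sum_ex_le c Ch hc hCh p₀ K
        have h2 : ∑ i : prs K, Real.log (i : ℕ) * av P i ≤
            4 * Real.log 4 * Real.sqrt P + 2 * Real.log K := by
          have e1 : ∑ i : prs K, Real.log (i : ℕ) * av P i =
              ∑ p ∈ prs K, Real.log (p : ℕ) * av P p :=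
            Finset.sum_coe_sort (prs K) (fun p => Real.log (p : ℕ) * av P p)
          rw [e1]
          have e2 : ∀ p ∈ prs K, Real.log (p : ℕ) * av P p ≤
              (if p ≤ P then Real.log p / Real.sqrt p else 0) + Real.log p / p := by
            intro p _
            have hl : 0 ≤ Real.log p := Real.log_natCast_nonneg p
            unfold av
            split_ifs
            · have : 0 ≤ Real.log p / p := by positivity
              rw [mul_one_div]; linarith
            · rw [mul_one_div, zero_add]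
          refine (Finset.sum_le_sum e2).trans ?_
          rw [Finset.sum_add_distrib]
          refine add_le_add ?_ (sum_log_div_le K (by omega))
          rw [← Finset.sum_filter]
          refine le_trans ?_ (sum_log_div_sqrt_le P)
          refine Finset.sum_le_sum_of_subset_of_nonneg ?_ fun p _ _ =>
            div_nonneg (Real.log_natCast_nonneg p) (Real.sqrt_nonneg _)
          intro p hp
          rw [Finset.mem_filter] at hp ⊢
          rw [Finset.mem_range]
          exact ⟨by omega, (mem_prs.mp hp.1).2⟩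
        have h3 : ∑ i : prs K, Real.log (i : ℕ) * (v i : ℝ) ≤ Real.log K := by
          rw [← log_num v]
          refine Real.log_le_log (by exact_mod_cast num_pos v) ?_
          have : num v ∣ q₁ := by
            rw [← Nat.factorization_prime_le_iff_dvd (num_pos v).ne' (by omega)]
            intro p hp
            by_cases hpK : p ≤ K
            · have := num_factorization v ⟨p, mem_prs.mpr ⟨hpK, hp⟩⟩
              rw [this]
            · rw [Nat.factorization_eq_zero_of_not_dvd]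
              · exact Nat.zero_le _
              · intro hd
                unfold num at hd
                rw [Prime.dvd_finsetProd_iff hp.prime] at hd
                obtain ⟨i, -, hi⟩ := hd
                have h5 := hp.dvd_of_dvd_pow hi
                have h6 := (Nat.prime_dvd_prime_iff_eq hp (prs_prime i)).mp h5
                have h7 := (mem_prs.mp i.2).1
                omega
          exact_mod_cast (Nat.le_of_dvd (by omega) this).trans hq₁K
        rw [h1]
        have hs : 0 ≤ Real.sqrt P := Real.sqrt_nonneg _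
        have h4 := mul_le_mul_of_nonneg_left h2 hC30.le
        have h5 := mul_le_mul_of_nonneg_left h3 (by linarith : (0 : ℝ) ≤ 1 + C3)
        rw [hL, hCD]
        have h6 : 0 ≤ C3 * (4 * Real.log 4) * Real.log K := by positivity
        have h7 : 0 ≤ (C3 * 2 + (1 + C3)) * Real.sqrt P := by positivity
        have h8 : (0 : ℝ) ≤ p₀ := Nat.cast_nonneg _
        nlinarith)
    have hwt : wt2 C c Ch p₀ q₁ ≤ ∏ i : prs K, pp2 C c Ch p₀ P K i (v i) := by
      have e1 : ∏ i : prs K, pp2 C c Ch p₀ P K i (v i) =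
          ∏ p ∈ prs K, pp2 C c Ch p₀ P K p (q₁.factorization p) :=
        Finset.prod_coe_sort (prs K) (fun p => pp2 C c Ch p₀ P K p (q₁.factorization p))
      have hsub : q₁.primeFactors ⊆ prs K := by
        intro p hp
        rw [mem_prs]
        exact ⟨(Nat.le_of_mem_primeFactors hp).trans hq₁K, Nat.prime_of_mem_primeFactors hp⟩
      rw [e1, ← Finset.prod_subset hsub (fun p _ hp => by
        have : q₁.factorization p = 0 := by
          rw [← Finsupp.notMem_support_iff, Nat.support_factorization]; exact hp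
        rw [this, pp2_zero])]
      unfold wt2
      rw [Finsupp.prod, Nat.support_factorization]
      refine Finset.prod_le_prod (fun p hp => ?_) fun p hp => ?_
      · exact om2_nonneg C c Ch p₀ (by linarith) (by linarith) p _
      · have hpp := Nat.prime_of_mem_primeFactors hp
        have hpos : 1 ≤ q₁.factorization p :=
          hpp.factorization_pos_of_dvd (by omega) (Nat.dvd_of_mem_primeFactors hp)
        refine om2_le_pp2 hC hpp.two_le hpos
          (((Nat.factorization_lt p (by omega : q₁ ≠ 0)).le).trans hq₁K) fun hPp => ?_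
        have h1 := hsq p hpp hPp (Nat.dvd_of_mem_primeFactors hp)
        exact (hpp.pow_dvd_iff_le_factorization (by omega)).mp h1
    refine hwt.trans (hmk.trans ?_)
    refine mul_le_mul_of_nonneg_left ?_ (by norm_num)
    calc ∑ e ∈ E.filter (fun e => (∀ i, v i ≤ e i) ∧ (∀ i ∈ T, e i = 0) ∧
            ∑ i : prs K, Real.log (i : ℕ) * (e i : ℝ) ≤ L), G e
        = ∑ D ∈ (E.filter (fun e => (∀ i, v i ≤ e i) ∧ (∀ i ∈ T, e i = 0) ∧
            ∑ i : prs K, Real.log (i : ℕ) * (e i : ℝ) ≤ L)).image num,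
            ∏ i : prs K, mu2 C c Ch p₀ P K i (D.factorization i) := by
          rw [Finset.sum_image (fun a _ b _ h => num_injective h)]
          exact Finset.sum_congr rfl fun e _ => (hϖ e).symm
      _ ≤ _ := by
          refine Finset.sum_le_sum_of_subset_of_nonneg ?_ fun D _ _ =>
            Finset.prod_nonneg fun i _ => hmu i _
          intro D hD
          rw [Finset.mem_image] at hD
          obtain ⟨e, he, rfl⟩ := hD
          rw [Finset.mem_filter] at he
          rw [Finset.mem_filter, Finset.mem_image]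
          refine ⟨⟨e, Finset.mem_filter.mpr ⟨he.1, he.2.2.2⟩, rfl⟩,
            dvd_num hq₁ hq₁K e he.2.1, coprime_num e fun i hi => ?_⟩
          exact he.2.2.1 i (Finset.mem_filter.mpr ⟨Finset.mem_univ _, hi⟩)

end Vale.Agent.P042.UB
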