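import Vale.Agent.Lib.P042.UB.K.Incr2
import Vale.Agent.Lib.P042.UB.Final

set_option autoImplicit false

namespace Vale.Agent.P042.UB

open Polynomial

/-- Final bound, with `c` depending on the degree only. -/
theorem final_bound2 (k : ℕ) (hk : 1 ≤ k) : ∃ c : ℝ, 0 < c ∧ ∀ h : ℤ[X], h.natDegree = k →
    0 < h.leadingCoeff → (∀ q : ℕ, 1 ≤ q → ∃ t : ℤ, (q : ℤ) ∣ h.eval t) →
    ∃ C : ℝ, 0 < C ∧ ∀ (N : ℕ) (A : Finset ℕ), 1 ≤ N → A ⊆ Finset.Icc 1 N →
      (∀ a ∈ A, ∀ b ∈ A, ∀ n : ℕ, 1 ≤ n → (a : ℤ) - (b : ℤ) = h.eval (n : ℤ) →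
        (a : ℤ) - (b : ℤ) = 0) →
      (A.card : ℝ) ≤ C * N * Real.exp (-c * Real.sqrt (Real.log N)) := by
  obtain ⟨C, hC, hmainF⟩ := main_density2 k hk
  have hCR : (1 : ℝ) ≤ C := by exact_mod_cast hC
  refine ⟨1 / C, by positivity, ?_⟩
  intro h hdeg hlc hint
  obtain ⟨F, s, hF⟩ := exists_auxFamily h k hk hdeg hlc hint
  obtain ⟨n₀, hmain⟩ := hmainF F
  refine ⟨Real.exp (n₀ + 1), Real.exp_pos _, ?_⟩
  intro N A hN hA hav
  have hNR : (1 : ℝ) ≤ N := by exact_mod_cast hN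
  have hN0 : (0 : ℝ) < N := by linarith
  have hlogN : 0 ≤ Real.log N := Real.log_nonneg hNR
  have hcardN : (A.card : ℝ) ≤ N := by
    have := Finset.card_le_card hA
    rw [Nat.card_Icc] at this
    exact_mod_cast (by simpa using this)
  set x : ℝ := Real.sqrt (Real.log N) with hx
  have hx0 : 0 ≤ x := Real.sqrt_nonneg _
  have hx2 : x ^ 2 = Real.log N := Real.sq_sqrt hlogN
  -- choose `n`
  obtain ⟨n, hn⟩ : ∃ n : ℕ, n = ⌊x / C⌋₊ := ⟨_, rfl⟩
  have hn1 : (n : ℝ) ≤ x / C := by rw [hn]; exact Nat.floor_le (by positivity)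
  have hn2 : x / C < n + 1 := by rw [hn]; exact Nat.lt_floor_add_one _
  have hn₀R : (0 : ℝ) ≤ n₀ := Nat.cast_nonneg _
  by_cases hnC : n₀ ≤ n
  · -- main case
    have hsize : 2 ^ (C * n ^ 2) ≤ N := by
      have h1 : ((2 : ℝ) ^ (C * n ^ 2)) ≤ N := by
        rw [← Real.log_le_log_iff (by positivity) hN0, Real.log_pow]
        push_cast
        have h2 : Real.log 2 ≤ 1 := by
          have := Real.log_two_lt_d9
          linarith
        have h3 : (n : ℝ) ^ 2 ≤ (x / C) ^ 2 := pow_le_pow_left₀ (Nat.cast_nonneg _) hn1 2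
        have h4 : (C : ℝ) * n ^ 2 ≤ x ^ 2 := by
          calc (C : ℝ) * n ^ 2 ≤ C * (x / C) ^ 2 := by gcongr
            _ = x ^ 2 / C := by field_simp
            _ ≤ x ^ 2 := div_le_self (by positivity) hCR
        calc (C : ℝ) * n ^ 2 * Real.log 2 ≤ (C : ℝ) * n ^ 2 * 1 := by gcongr
          _ ≤ Real.log N := by rw [mul_one, ← hx2]; exact h4
      exact_mod_cast h1
    have hmap : (A.map ⟨fun a : ℕ => (a : ℤ), Nat.cast_injective⟩) ⊆ Finset.Icc (1 : ℤ) N := by
      intro z hz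
      rw [Finset.mem_map] at hz
      obtain ⟨a, ha, rfl⟩ := hz
      have := hA ha
      rw [Finset.mem_Icc] at this ⊢
      simp only [Function.Embedding.coeFn_mk]
      omega
    have havoid : Avoids (F.H 1) (A.map ⟨fun a : ℕ => (a : ℤ), Nat.cast_injective⟩) := by
      intro a ha b hb m hm heq
      rw [Finset.mem_map] at ha hb
      obtain ⟨a, ha, rfl⟩ := ha
      obtain ⟨b, hb, rfl⟩ := hb
      simp only [Function.Embedding.coeFn_mk] at heq
      have hpos : 0 < (F.H 1).eval (m : ℤ) := eval_pos_of_coeff _ _ (F.natDegree_H 1 one_pos)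
        (F.coeff_pos 1 one_pos) m
      have h1 : (F.H 1).eval (m : ℤ) = h.eval ((m + s : ℕ) : ℤ) := by
        rw [hF, eval_comp]
        simp
      have h2 := hav a ha b hb (m + s) (by omega) (by rw [heq, h1])
      rw [← heq] at hpos
      omega
    have h1 := hmain n N hnC hsize _ hmap havoid
    rw [Finset.card_map] at h1
    have h2 : (A.card : ℝ) * 2 ^ (2 * n) ≤ N := by exact_mod_cast h1.le
    have h3 : Real.exp (n : ℝ) ≤ (2 : ℝ) ^ (2 * n) := by
      rw [pow_mul, ← Real.exp_log (show (0 : ℝ) < (2 : ℝ) ^ 2 by norm_num), ← Real.exp_nat_mul]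
      apply Real.exp_le_exp.2
      have h4 : 1 ≤ Real.log ((2 : ℝ) ^ 2) := by
        rw [Real.log_pow]
        have := Real.log_two_gt_d9
        push_cast
        linarith
      have h5 : (0 : ℝ) ≤ n := Nat.cast_nonneg _
      nlinarith
    have h4 : (A.card : ℝ) * Real.exp n ≤ N :=
      (mul_le_mul_of_nonneg_left h3 (Nat.cast_nonneg _)).trans h2
    have h5 : (A.card : ℝ) ≤ N * Real.exp (-(n : ℝ)) := by
      rw [Real.exp_neg, ← div_eq_mul_inv, le_div_iff₀ (Real.exp_pos _)]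
      exact h4
    refine h5.trans ?_
    rw [mul_comm (Real.exp (n₀ + 1)) (N : ℝ), mul_assoc, ← Real.exp_add]
    apply mul_le_mul_of_nonneg_left _ hN0.le
    apply Real.exp_le_exp.2
    have : -(1 / (C : ℝ)) * x = -(x / C) := by ring
    rw [this]
    linarith
  · -- `N` bounded
    push Not at hnC
    refine hcardN.trans ?_
    have h1 : (n : ℝ) + 1 ≤ n₀ := by exact_mod_cast hnC
    have h2 : x / C < n₀ := lt_of_lt_of_le hn2 h1
    have h3 : -(1 / (C : ℝ)) * x = -(x / C) := by ring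
    rw [mul_comm (Real.exp (n₀ + 1)) (N : ℝ), mul_assoc, ← Real.exp_add, h3]
    have h4 : (1 : ℝ) ≤ Real.exp (n₀ + 1 + -(x / C)) := Real.one_le_exp (by linarith)
    calc (N : ℝ) = N * 1 := (mul_one _).symm
      _ ≤ _ := mul_le_mul_of_nonneg_left h4 hN0.le

end Vale.Agent.P042.UB
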