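import Vale.Agent.Lib.P042.UB.Iterate
import Vale.Agent.Lib.P042.UB.K.CSumWt2
import Vale.Agent.Lib.P042.UB.K.Div2
import Vale.Agent.Lib.P042.UB.K.Combine2
import Vale.Agent.Lib.P042.UB.K.Arcs2

set_option autoImplicit false

namespace Vale.Agent.P042.UB

open Polynomial

theorem param_big (cp CK n K P : ℕ) (hcp : 1 ≤ cp) (hCK : 1 ≤ CK)
    (hK : K = 2 ^ (CK * (2 * n))) (hP : P = (cp * (2 * n)) ^ 2) : n ≤ K ∧ n ≤ P := by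
  constructor
  · rw [hK]
    calc n ≤ 2 ^ n := Nat.lt_two_pow_self.le
      _ ≤ 2 ^ (CK * (2 * n)) := Nat.pow_le_pow_right (by norm_num) (by nlinarith)
  · rw [hP]
    calc n ≤ cp * (2 * n) := by nlinarith
      _ ≤ (cp * (2 * n)) ^ 2 := Nat.le_self_pow (by norm_num) _

theorem param_sum (DD : Finset ℕ) (ϖ : ℕ → ℝ) (B : ℝ) (hB : 0 ≤ B) (hϖ0 : ∀ D, 0 ≤ ϖ D)
    (hϖ1 : ∑ D ∈ DD, ϖ D ≤ 1) (X : ℕ → ℝ) (hX : ∀ D ∈ DD, X D ≤ B) :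
    ∑ D ∈ DD, ϖ D * X D ≤ B := by
  calc _ ≤ ∑ D ∈ DD, ϖ D * B :=
        Finset.sum_le_sum fun D hD => mul_le_mul_of_nonneg_left (hX D hD) (hϖ0 D)
    _ = (∑ D ∈ DD, ϖ D) * B := by rw [Finset.sum_mul]
    _ ≤ 1 * B := mul_le_mul_of_nonneg_right hϖ1 hB
    _ = _ := one_mul _

theorem param_dN (d n CN C₁ N : ℕ) (hn : 2 ≤ n) (hd : 0 < d) (hC : CN ≤ C₁)
    (hdN : (d * 2 ^ (n ^ 2)) ^ C₁ ≤ N) : (d * 2 ^ (2 * n)) ^ CN ≤ N := by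
  refine le_trans ?_ hdN
  calc (d * 2 ^ (2 * n)) ^ CN ≤ (d * 2 ^ (n ^ 2)) ^ CN := by
        apply Nat.pow_le_pow_left
        apply Nat.mul_le_mul_left
        apply Nat.pow_le_pow_right (by norm_num)
        nlinarith
    _ ≤ (d * 2 ^ (n ^ 2)) ^ C₁ := Nat.pow_le_pow_right (by positivity) hC

theorem param_Y (n : ℕ) (hn : 20 ≤ n) (α : ℝ) (hαn : (1 / 2) ^ (2 * n) ≤ α) :
    (1000000 : ℝ) ≤ (2 : ℝ) ^ (2 * n) ∧ 1 / (2 : ℝ) ^ (2 * n) ≤ α := by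
  constructor
  · calc (1000000 : ℝ) ≤ 2 ^ 40 := by norm_num
      _ ≤ 2 ^ (2 * n) := pow_le_pow_right₀ (by norm_num) (by omega)
  · rw [one_div, ← inv_pow]
    convert hαn using 2
    norm_num

/-- Density increment with exponents depending on the degree only. -/
theorem increment2 (k : ℕ) (hk : 1 ≤ k) :
    ∃ C₀ C₁ : ℕ, 1 ≤ C₀ ∧ 1 ≤ C₁ ∧ ∀ F : AuxFamily k, ∃ n₀ : ℕ, ∀ n d N : ℕ, n₀ ≤ n → 0 < d →
      (d * 2 ^ (n ^ 2)) ^ C₁ ≤ N →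
      ∀ A : Finset ℤ, A ⊆ Finset.Icc (1 : ℤ) N → ∀ α : ℝ, (1 / 2) ^ (2 * n) ≤ α → α ≤ 1 →
      (A.card : ℝ) = α * N → Avoids (F.H d) A →
      ¬ NoIncr F A α (1 / 1000) (2 ^ (C₀ * n)) (N / 2 ^ (C₀ * n)) := by
  obtain ⟨C, c, hC, hc, hc1, hfam⟩ := cSum_le_wt2 k hk
  obtain ⟨CK, CN, hCK, hCN, harcsF⟩ := arcs_lower2 k hk
  obtain ⟨CP, CD, hCP, hCD, hdivF⟩ := exists_divisor_weights2 C c hC hc hc1
  obtain ⟨cp, hcp⟩ : ∃ cp : ℕ, 2000000 * C + CP * CK ≤ cp := ⟨_, Nat.le_ceil _⟩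
  obtain ⟨C₂, hC₂⟩ : ∃ C₂ : ℕ, 2 * (CD * (cp + CK)) ≤ C₂ := ⟨_, Nat.le_ceil _⟩
  obtain ⟨s, hs⟩ : ∃ s : ℕ, s = 2 * CK + 3 := ⟨_, rfl⟩
  obtain ⟨CH, hCH⟩ : ∃ CH : ℕ, CH = C₂ + 2 * s := ⟨_, rfl⟩
  obtain ⟨C₀, hC₀⟩ : ∃ C₀ : ℕ, C₀ = 20 + 2 * k * (C₂ + CK) + 2 * CH := ⟨_, rfl⟩
  obtain ⟨C₁, hC₁⟩ : ∃ C₁ : ℕ, C₁ = 2 * cp + 20 + CN + 4 * CK + 2 * CH + C₀ + 6 * CK + 2 :=
    ⟨_, rfl⟩
  refine ⟨C₀, C₁, by omega, by omega, ?_⟩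
  intro F
  obtain ⟨Ch, p₀, hCh, hwt⟩ := hfam F
  obtain ⟨m₀, harcs⟩ := harcsF F
  obtain ⟨K₀, hdiv⟩ := hdivF Ch p₀ hCh
  refine ⟨C₁ + m₀ + K₀ + p₀, ?_⟩
  intro n d N hn hd hdN A hA α hαn hα1 hα hav hNI
  have hn20 : 20 ≤ n := by omega
  -- the size of `N`
  have hN2 : 2 ^ (C₁ * n ^ 2) ≤ N := by
    refine le_trans ?_ hdN
    rw [mul_comm C₁, pow_mul]
    exact Nat.pow_le_pow_left (Nat.le_mul_of_pos_left _ hd) _
  have hα0 : 0 < α := lt_of_lt_of_le (by positivity) hαn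
  -- parameters
  obtain ⟨K, hK⟩ : ∃ K : ℕ, K = 2 ^ (CK * (2 * n)) := ⟨_, rfl⟩
  obtain ⟨P, hP⟩ : ∃ P : ℕ, P = (cp * (2 * n)) ^ 2 := ⟨_, rfl⟩
  obtain ⟨H, hH⟩ : ∃ H : ℕ, H = N / 2 ^ (CH * (2 * n)) := ⟨_, rfl⟩
  obtain ⟨Q, hQ⟩ : ∃ Q : ℕ, Q = 2 ^ (C₀ * n) := ⟨_, rfl⟩
  obtain ⟨L, hL⟩ : ∃ L : ℕ, L = N / 2 ^ (C₀ * n) := ⟨_, rfl⟩
  obtain ⟨hcp1, hsqrtP, hκeq, hκle, hP1, hP2, hlogK, hCPK⟩ :=
    param_P C CP hC hCP cp CK n P K hcp hn20 (by omega) hP hK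
  obtain ⟨hN1, hK2, hKH, hH2, hL1, hr2⟩ := param_HL CK CH C₀ C₁ n N K H L hCK (by omega)
    (by omega) (by omega) (by omega) hN2 hK hH hL
  have hNR : (0 : ℝ) < N := by exact_mod_cast hN1
  obtain ⟨hnK, hnP⟩ := param_big cp CK n K P hcp1 hCK hK hP
  have hKK₀ : K₀ ≤ K := by omega
  have hPp₀ : p₀ ≤ P := by omega
  obtain ⟨DD, ϖ, hDD1, hϖ0, hϖ1, hDD⟩ := hdiv K P hKK₀ hK2 hCPK
  -- facts on `H`, `L`
  have hHmul : H * 2 ^ (CH * (2 * n)) ≤ N := by rw [hH]; exact Nat.div_mul_le_self _ _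
  have hLmul : L * 2 ^ (C₀ * n) ≤ N := by rw [hL]; exact Nat.div_mul_le_self _ _
  have hr : (0 : ℝ) < (2 : ℝ) ^ (CK * (2 * n)) / N := by positivity
  obtain ⟨hYbig, hαY⟩ := param_Y n hn20 α hαn
  rw [← hL, ← hQ] at hNI
  -- the per-divisor bound
  have hper : ∀ D ∈ DD, ∑ q₂ ∈ (Finset.Icc 1 K).filter (fun q₂ => Squarefree q₂ ∧
        (∀ p ∈ q₂.primeFactors, P < p) ∧ q₂.Coprime D), wt2 C c Ch p₀ q₂ *
          ∑ q₁ ∈ D.divisors.filter (fun q₁ => q₁ * q₂ ≤ K),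
            arcEnergy N (bal N A) ((2 : ℝ) ^ (CK * (2 * n)) / N) (q₁ * q₂) ≤
      α ^ 2 * N / 25 := by
    intro D hD
    have hD1 := (hDD1 D hD).1
    have h := per_divisor_param F C c hC hc cp CK C₂ s CH C₀ hs hCH hC₀ hk n hn20 N hN1 A hA α
      hα0 hα1 hαn hα K P H Q L hK hH hQ hHmul hLmul hP1 hP2 hκeq hκle hH2 hKH (by omega) hL1 hr
      hr2 _ rfl hYbig hαY hNI D hD1
      (param_D CD hCD cp CK C₂ n D _ _ hC₂ hsqrtP hlogK hD1 (hDD1 D hD).2)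
    refine le_trans (le_of_eq ?_) h
    refine Finset.sum_congr rfl fun q₂ hq₂ => ?_
    rw [Finset.mem_filter] at hq₂
    rw [wt2_eq_wt C c Ch p₀ q₂ (fun p hp => lt_of_le_of_lt hPp₀ (hq₂.2.2.1 p hp))]
  -- conclusion
  have hw0 : ∀ q, 0 ≤ wt2 C c Ch p₀ q := wt2_nonneg C c Ch p₀ (by linarith) (by linarith)
  have hcomb := combine2 (wt2 C c Ch p₀) hw0 (wt2_mul C c Ch p₀) K P DD ϖ hϖ0
    (fun D hD => (hDD1 D hD).1) hDD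
    (fun q => arcEnergy N (bal N A) ((2 : ℝ) ^ (CK * (2 * n)) / N) q)
    (fun q => arcEnergy_nonneg _ _ _ hr.le q)
  have hlow := harcs (wt2 C c Ch p₀) hw0 hwt (2 * n) d N (by omega) (by omega) hd
    (param_dN d n CN C₁ N (by omega) hd (by omega) hdN) A hA α hαn hα1 hα hav
  have hup := param_sum DD ϖ (α ^ 2 * N / 25) (by positivity) hϖ0 hϖ1 _ hper
  rw [← hK] at hlow
  have hα2N : 0 < α ^ 2 * N := by positivity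
  linarith

/-- One step of the iteration. -/
theorem step2 (k : ℕ) (hk : 1 ≤ k) :
    ∃ C₀ C₁ : ℕ, 1 ≤ C₀ ∧ 1 ≤ C₁ ∧ ∀ F : AuxFamily k, ∃ n₀ : ℕ, ∀ n : ℕ, n₀ ≤ n → ∀ d N : ℕ,
      0 < d → (d * 2 ^ (n ^ 2)) ^ C₁ ≤ N →
      ∀ A : Finset ℤ, A ⊆ Finset.Icc (1 : ℤ) N → N ≤ A.card * 2 ^ (2 * n) → Avoids (F.H d) A →
      ∃ (d' N' : ℕ) (A' : Finset ℤ), 0 < d' ∧ d' ≤ d * 2 ^ (C₀ * n) ∧ N' = N / 2 ^ (C₀ * n) ∧
        A' ⊆ Finset.Icc (1 : ℤ) N' ∧ Avoids (F.H d') A' ∧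
        (1 + 1 / 1000) * ((A.card : ℝ) / N) * N' ≤ (A'.card : ℝ) := by
  obtain ⟨C₀, C₁, hC₀, hC₁, hincF⟩ := increment2 k hk
  refine ⟨C₀, C₁, hC₀, hC₁, ?_⟩
  intro F
  obtain ⟨n₀, hinc⟩ := hincF F
  refine ⟨n₀, ?_⟩
  intro n hn d N hd hdN A hA hcard hav
  have hN1 : 1 ≤ N := le_trans (Nat.one_le_pow _ _ (by positivity)) hdN
  have hNR : (0 : ℝ) < N := by exact_mod_cast hN1
  have hαn : (1 / 2 : ℝ) ^ (2 * n) ≤ (A.card : ℝ) / N := by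
    rw [le_div_iff₀ hNR]
    have h1 : (N : ℝ) ≤ A.card * 2 ^ (2 * n) := by exact_mod_cast hcard
    calc (1 / 2 : ℝ) ^ (2 * n) * N ≤ (1 / 2 : ℝ) ^ (2 * n) * (A.card * 2 ^ (2 * n)) :=
          mul_le_mul_of_nonneg_left h1 (by positivity)
      _ = A.card * ((1 / 2 : ℝ) * 2) ^ (2 * n) := by rw [mul_pow]; ring
      _ = A.card := by norm_num
  have hα1 : (A.card : ℝ) / N ≤ 1 := by
    rw [div_le_one hNR]
    exact_mod_cast card_le_of_subset_Icc N A hA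
  have hα : (A.card : ℝ) = (A.card : ℝ) / N * N := by field_simp
  have h := hinc n d N hn hd hdN A hA _ hαn hα1 hα hav
  unfold NoIncr at h
  push Not at h
  obtain ⟨q, hq1, hq2, b, hb⟩ := h
  refine ⟨d * q, N / 2 ^ (C₀ * n), (Finset.Icc (1 : ℤ) ((N / 2 ^ (C₀ * n) : ℕ) : ℤ)).filter
    (fun i => b + (F.lam q : ℤ) * i ∈ A), by positivity, Nat.mul_le_mul_left d hq2, rfl,
    Finset.filter_subset _ _, ?_, hb.le⟩
  intro i hi i' hi' n' hn' heq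
  rw [Finset.mem_filter] at hi hi'
  obtain ⟨y, hy, hy'⟩ := F.inherit d q n' hd (by omega) (by omega)
  refine hav _ hi.2 _ hi'.2 y hy ?_
  rw [← hy', ← heq]
  ring

theorem iterate_aux2 {k : ℕ} (F : AuxFamily k) (C₀ C₁ n : ℕ) (hC₀ : 1 ≤ C₀) (hC₁ : 1 ≤ C₁)
    (hstep : ∀ d N : ℕ, 0 < d → (d * 2 ^ (n ^ 2)) ^ C₁ ≤ N →
      ∀ A : Finset ℤ, A ⊆ Finset.Icc (1 : ℤ) N → N ≤ A.card * 2 ^ (2 * n) → Avoids (F.H d) A →
      ∃ (d' N' : ℕ) (A' : Finset ℤ), 0 < d' ∧ d' ≤ d * 2 ^ (C₀ * n) ∧ N' = N / 2 ^ (C₀ * n) ∧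
        A' ⊆ Finset.Icc (1 : ℤ) N' ∧ Avoids (F.H d') A' ∧
        (1 + 1 / 1000) * ((A.card : ℝ) / N) * N' ≤ (A'.card : ℝ))
    (C N : ℕ) (hC : C = (3000 * C₀ + 1) * C₁ + 3000 * (C₀ + 1) + C₀ + C₁ + 1) (hn : C ≤ n)
    (hN : 2 ^ (C * n ^ 2) ≤ N) (A : Finset ℤ) (hA : A ⊆ Finset.Icc (1 : ℤ) N)
    (hav : Avoids (F.H 1) A) (hcard : N ≤ A.card * 2 ^ (2 * n)) (i : ℕ) (hi : i ≤ 3000 * n) :
    ∃ (d' N' : ℕ) (A' : Finset ℤ), 0 < d' ∧ d' ≤ 2 ^ (C₀ * n * i) ∧ 1 ≤ N' ∧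
      N ≤ N' * 2 ^ ((C₀ * n + 1) * i) ∧ A' ⊆ Finset.Icc (1 : ℤ) N' ∧ Avoids (F.H d') A' ∧
      (1 + 1 / 1000) ^ i * ((A.card : ℝ) / N) * N' ≤ (A'.card : ℝ) := by
  have hN1 : 1 ≤ N := le_trans Nat.one_le_two_pow hN
  have hNR : (0 : ℝ) < N := by exact_mod_cast hN1
  induction i with
  | zero =>
    refine ⟨1, N, A, one_pos, by simp, hN1, by simp, hA, hav, ?_⟩
    rw [pow_zero, one_mul, div_mul_cancel₀ _ hNR.ne']
  | succ i ih =>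
    obtain ⟨d', N', A', hd', hd'2, hN', hNN', hA', hav', hden⟩ := ih (by omega)
    have hN'R : (0 : ℝ) < N' := by exact_mod_cast hN'
    -- size of `N'`
    have hsize : 2 ^ ((C₀ * n * i + n ^ 2) * C₁) ≤ N' := by
      have h1 : 2 ^ ((C₀ * n * i + n ^ 2) * C₁ + (C₀ * n + 1) * i) ≤ N := by
        refine le_trans (Nat.pow_le_pow_right (by norm_num) ?_) hN
        have hi' : i ≤ 3000 * n := by omega
        have hn1 : 1 ≤ n := by omega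
        calc (C₀ * n * i + n ^ 2) * C₁ + (C₀ * n + 1) * i
            ≤ (C₀ * n * (3000 * n) + n ^ 2) * C₁ + (C₀ * n + 1 * n) * (3000 * n) := by
              gcongr
              omega
          _ = ((3000 * C₀ + 1) * C₁ + 3000 * (C₀ + 1)) * n ^ 2 := by ring
          _ ≤ C * n ^ 2 := Nat.mul_le_mul_right _ (by omega)
      rw [pow_add] at h1
      exact Nat.le_of_mul_le_mul_right (h1.trans hNN') (by positivity)
    have hcond : (d' * 2 ^ (n ^ 2)) ^ C₁ ≤ N' := by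
      refine le_trans ?_ hsize
      rw [pow_mul, pow_add]
      exact Nat.pow_le_pow_left (Nat.mul_le_mul_right _ hd'2) _
    have hcard' : N' ≤ A'.card * 2 ^ (2 * n) := by
      have h1 : (1 : ℝ) ≤ (1 + 1 / 1000) ^ i := one_le_pow₀ (by norm_num)
      have h2 : (N : ℝ) ≤ A.card * 2 ^ (2 * n) := by exact_mod_cast hcard
      have h3 : (1 : ℝ) ≤ (A.card : ℝ) / N * 2 ^ (2 * n) := by
        rw [div_mul_eq_mul_div, le_div_iff₀ hNR, one_mul]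
        exact h2
      have h4 : (N' : ℝ) ≤ (A'.card : ℝ) * 2 ^ (2 * n) := by
        calc (N' : ℝ) = 1 * 1 * N' := by ring
          _ ≤ (1 + 1 / 1000) ^ i * ((A.card : ℝ) / N * 2 ^ (2 * n)) * N' := by gcongr
          _ = ((1 + 1 / 1000) ^ i * ((A.card : ℝ) / N) * N') * 2 ^ (2 * n) := by ring
          _ ≤ (A'.card : ℝ) * 2 ^ (2 * n) := by gcongr
      exact_mod_cast h4
    obtain ⟨d'', N'', A'', hd'', hd''2, hN'', hA'', hav'', hden'⟩ :=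
      hstep d' N' hd' hcond A' hA' hcard' hav'
    have hbig : 2 ^ (C₀ * n) ≤ N' := by
      refine le_trans (Nat.pow_le_pow_right (by norm_num) ?_) hsize
      calc C₀ * n ≤ n * n := Nat.mul_le_mul_right _ (by omega)
        _ = n ^ 2 * 1 := by ring
        _ ≤ (C₀ * n * i + n ^ 2) * C₁ := Nat.mul_le_mul (by omega) hC₁
    have hN''1 : 1 ≤ N'' := by
      rw [hN'', Nat.le_div_iff_mul_le (by positivity), one_mul]
      exact hbig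
    refine ⟨d'', N'', A'', hd'', ?_, hN''1, ?_, hA'', hav'', ?_⟩
    · refine hd''2.trans ?_
      calc d' * 2 ^ (C₀ * n) ≤ 2 ^ (C₀ * n * i) * 2 ^ (C₀ * n) := Nat.mul_le_mul_right _ hd'2
        _ = 2 ^ (C₀ * n * (i + 1)) := by rw [← pow_add]; congr 1
    · have h1 : N' ≤ N'' * 2 ^ (C₀ * n + 1) := by
        have h2 : N' < (N' / 2 ^ (C₀ * n) + 1) * 2 ^ (C₀ * n) := by
          have := Nat.lt_mul_div_succ N' (show 0 < 2 ^ (C₀ * n) by positivity)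
          calc N' < 2 ^ (C₀ * n) * (N' / 2 ^ (C₀ * n) + 1) := this
            _ = _ := mul_comm _ _
        rw [← hN''] at h2
        calc N' ≤ (N'' + 1) * 2 ^ (C₀ * n) := h2.le
          _ ≤ (N'' + N'') * 2 ^ (C₀ * n) := Nat.mul_le_mul_right _ (by omega)
          _ = N'' * 2 ^ (C₀ * n + 1) := by rw [pow_succ]; ring
      calc N ≤ N' * 2 ^ ((C₀ * n + 1) * i) := hNN'
        _ ≤ N'' * 2 ^ (C₀ * n + 1) * 2 ^ ((C₀ * n + 1) * i) := Nat.mul_le_mul_right _ h1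
        _ = N'' * 2 ^ ((C₀ * n + 1) * (i + 1)) := by
            rw [mul_assoc, ← pow_add]; congr 2; ring
    · have h1 : (1 + 1 / 1000) ^ i * ((A.card : ℝ) / N) ≤ (A'.card : ℝ) / N' := by
        rw [le_div_iff₀ hN'R]
        exact hden
      calc (1 + 1 / 1000) ^ (i + 1) * ((A.card : ℝ) / N) * N''
          = (1 + 1 / 1000) * ((1 + 1 / 1000) ^ i * ((A.card : ℝ) / N)) * N'' := by
            rw [pow_succ]; ring
        _ ≤ (1 + 1 / 1000) * ((A'.card : ℝ) / N') * N'' := by gcongr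
        _ ≤ (A''.card : ℝ) := hden'

/-- Iteration, exponent depending on the degree only. -/
theorem main_density2 (k : ℕ) (hk : 1 ≤ k) :
    ∃ C : ℕ, 1 ≤ C ∧ ∀ F : AuxFamily k, ∃ n₀ : ℕ, ∀ n N : ℕ, n₀ ≤ n → 2 ^ (C * n ^ 2) ≤ N →
      ∀ A : Finset ℤ, A ⊆ Finset.Icc (1 : ℤ) N → Avoids (F.H 1) A →
        A.card * 2 ^ (2 * n) < N := by
  obtain ⟨C₀, C₁, hC₀, hC₁, hstepF⟩ := step2 k hk
  refine ⟨(3000 * C₀ + 1) * C₁ + 3000 * (C₀ + 1) + C₀ + C₁ + 1, by omega, ?_⟩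
  intro F
  obtain ⟨n₀, hstep⟩ := hstepF F
  refine ⟨n₀ + ((3000 * C₀ + 1) * C₁ + 3000 * (C₀ + 1) + C₀ + C₁ + 1), ?_⟩
  intro n N hn hN A hA hav
  by_contra hcon
  push Not at hcon
  obtain ⟨d', N', A', -, -, hN', -, hA', -, hden⟩ :=
    iterate_aux2 F C₀ C₁ n hC₀ hC₁ (hstep n (by omega)) _ N rfl (by omega) hN A hA hav hcon
      (3000 * n) le_rfl
  have hN1 : 1 ≤ N := le_trans Nat.one_le_two_pow hN
  have hNR : (0 : ℝ) < N := by exact_mod_cast hN1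
  have hN'R : (0 : ℝ) < N' := by exact_mod_cast hN'
  have h1 : (A'.card : ℝ) ≤ N' := by exact_mod_cast card_le_of_subset_Icc N' A' hA'
  have h2 : (1 + 1 / 1000 : ℝ) ^ (3000 * n) * ((A.card : ℝ) / N) ≤ 1 := by
    by_contra h3
    push Not at h3
    have h4 : 1 * (N' : ℝ) < (1 + 1 / 1000 : ℝ) ^ (3000 * n) * ((A.card : ℝ) / N) * N' :=
      mul_lt_mul_of_pos_right h3 hN'R
    linarith
  have h3 : (2 : ℝ) ^ (3 * n) ≤ (1 + 1 / 1000 : ℝ) ^ (3000 * n) := by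
    rw [show 3000 * n = 1000 * (3 * n) by ring, pow_mul (1 + 1 / 1000 : ℝ)]
    apply pow_le_pow_left₀ (by norm_num)
    calc (2 : ℝ) = 1 + ((1000 : ℕ) : ℝ) * (1 / 1000) := by norm_num
      _ ≤ (1 + 1 / 1000) ^ 1000 := one_add_mul_le_pow (by norm_num) 1000
  have h4 : (1 : ℝ) ≤ (A.card : ℝ) / N * 2 ^ (2 * n) := by
    rw [div_mul_eq_mul_div, le_div_iff₀ hNR, one_mul]
    exact_mod_cast hcon
  have h5 : (0 : ℝ) ≤ (A.card : ℝ) / N := by positivity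
  have h6 : (2 : ℝ) ^ n ≤ 1 := by
    calc (2 : ℝ) ^ n = 2 ^ n * 1 := (mul_one _).symm
      _ ≤ 2 ^ n * ((A.card : ℝ) / N * 2 ^ (2 * n)) := by gcongr
      _ = 2 ^ (3 * n) * ((A.card : ℝ) / N) := by
          rw [show 3 * n = n + 2 * n by ring, pow_add]; ring
      _ ≤ (1 + 1 / 1000 : ℝ) ^ (3000 * n) * ((A.card : ℝ) / N) := by gcongr
      _ ≤ 1 := h2
  have h7 : (2 : ℝ) ^ 1 ≤ 2 ^ n := pow_le_pow_right₀ (by norm_num) (by omega)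
  norm_num at h7
  linarith

end Vale.Agent.P042.UB
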